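import Vale.Agent.P028.DS.Count

/-!
P028, milestone A, small boxes: powers of two, cofactors and sums over edges.
-/

namespace Vale.Agent.P028.DS.SmallBox

open Finset Real

/-- `2 ^ x` for an integer `x`. -/
noncomputable def p2 (x : ℤ) : ℝ := (2 : ℝ) ^ x

lemma p2_pos (x : ℤ) : 0 < p2 x := zpow_pos two_pos x
lemma p2_nonneg (x : ℤ) : 0 ≤ p2 x := (p2_pos x).le
lemma p2_add (x x' : ℤ) : p2 (x + x') = p2 x * p2 x' := zpow_add₀ two_ne_zero x x'
lemma p2_le {x x' : ℤ} (h : x ≤ x') : p2 x ≤ p2 x' := zpow_le_zpow_right₀ one_le_two h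
lemma p2_lt {x x' : ℤ} (h : x < x') : p2 x < p2 x' := zpow_lt_zpow_right₀ one_lt_two h
lemma p2_zero : p2 0 = 1 := zpow_zero _
lemma p2_one : p2 1 = 2 := zpow_one _
lemma one_le_p2 {x : ℤ} (h : 0 ≤ x) : 1 ≤ p2 x := p2_zero ▸ p2_le h
lemma p2_nat (n : ℕ) : p2 (n : ℤ) = (2 : ℝ) ^ n := zpow_natCast _ n
lemma p2_inv (x : ℤ) : (p2 x)⁻¹ = p2 (-x) := (zpow_neg (2 : ℝ) x).symm
lemma p2_div (x x' : ℤ) : p2 x / p2 x' = p2 (x - x') := (zpow_sub₀ two_ne_zero x x').symm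
lemma p2_pow (x : ℤ) (n : ℕ) : p2 x ^ n = p2 (x * n) := by
  rw [p2, p2, zpow_mul, zpow_natCast]
lemma log_p2 (x : ℤ) : Real.log (p2 x) = x * Real.log 2 := Real.log_zpow 2 x

lemma zpar_eq (i : ℕ) : zpar i = p2 (i : ℤ) := (p2_nat i).symm

lemma lvl_eq (i : ℕ) : lvl i = p2 (-((expN : ℤ) * i)) := by
  rw [lvl, zpar_eq, p2_pow, one_div, p2_inv]
  congr 1
  ring

lemma expN_eq : (expN : ℤ) = 10000 := by norm_cast
lemma smallExp_eq : (smallExp : ℤ) = 10300 := by norm_cast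

/-- The cofactors of a pair. -/
lemma cof_spec {v w : ℕ} (hv : 0 < v) (hw : 0 < w) :
    v = Nat.gcd v w * cof v w ∧ w = Nat.gcd v w * cof w v ∧ 0 < cof v w ∧ 0 < cof w v ∧
      Nat.Coprime (cof v w) (cof w v) := by
  have h1 : v = Nat.gcd v w * cof v w := (Nat.mul_div_cancel' (Nat.gcd_dvd_left v w)).symm
  have h2 : w = Nat.gcd v w * cof w v := by
    rw [cof, Nat.gcd_comm w v]
    exact (Nat.mul_div_cancel' (Nat.gcd_dvd_right v w)).symm
  refine ⟨h1, h2, ?_, ?_, ?_⟩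
  · exact Nat.pos_of_ne_zero fun h => by rw [h, mul_zero] at h1; omega
  · exact Nat.pos_of_ne_zero fun h => by rw [h, mul_zero] at h2; omega
  · rw [cof, cof, Nat.gcd_comm w v]
    exact Nat.coprime_div_gcd_div_gcd (Nat.gcd_pos_of_pos_left _ hv)

open Classical in
/-- The finite set of edges. -/
noncomputable def edges (E : ℕ → ℕ → Prop) (V W : Finset ℕ) : Finset (ℕ × ℕ) :=
  (V ×ˢ W).filter fun x => E x.1 x.2

open Classical in
lemma edgeSum_eq (E : ℕ → ℕ → Prop) (f g : ℕ → ℝ) (V W : Finset ℕ) :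
    edgeSum E f g V W = ∑ x ∈ edges E V W, f x.1 * g x.2 := by
  rw [edgeSum, edges, Finset.sum_filter, Finset.sum_product]

lemma edgeSum_mono_or {E E1 E2 : ℕ → ℕ → Prop} {f : ℕ → ℝ} (hf : ∀ q, 0 ≤ f q) (F : Finset ℕ)
    (h : ∀ v ∈ F, ∀ w ∈ F, E v w → E1 v w ∨ E2 v w) :
    edgeSum E f f F F ≤ edgeSum E1 f f F F + edgeSum E2 f f F F := by
  classical
  simp only [edgeSum_eq]
  have hsub : edges E F F ⊆ edges E1 F F ∪ edges E2 F F := by
    intro x hx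
    simp only [edges, Finset.mem_filter, Finset.mem_product, Finset.mem_union] at hx ⊢
    rcases h _ hx.1.1 _ hx.1.2 hx.2 with h' | h'
    · exact Or.inl ⟨hx.1, h'⟩
    · exact Or.inr ⟨hx.1, h'⟩
  refine (Finset.sum_le_sum_of_subset_of_nonneg hsub fun x _ _ => mul_nonneg (hf _) (hf _)).trans ?_
  rw [← Finset.sum_union_inter]
  exact le_add_of_nonneg_right (Finset.sum_nonneg fun x _ => mul_nonneg (hf _) (hf _))

lemma edgeSum_swap (E : ℕ → ℕ → Prop) (f : ℕ → ℝ) (F : Finset ℕ) :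
    edgeSum E f f F F = edgeSum (fun v w => E w v) f f F F := by
  classical
  simp only [edgeSum]
  rw [Finset.sum_comm]
  simp only [mul_comm]

end Vale.Agent.P028.DS.SmallBox
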