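import Vale.Agent.P028.DS.SmallBox.Basic

/-!
P028, milestone A, small boxes: projection to a random set of primes, layers and fibres.
-/

namespace Vale.Agent.P028.DS.SmallBox

open Finset Real

/-- The part of `n` supported on the primes in `G`. -/
noncomputable def gp (G : Finset ℕ) (n : ℕ) : ℕ := ∏ p ∈ G, p ^ n.factorization p

lemma gp_mul (G : Finset ℕ) {m n : ℕ} (hm : m ≠ 0) (hn : n ≠ 0) :
    gp G (m * n) = gp G m * gp G n := by
  simp only [gp, Nat.factorization_mul hm hn, Finsupp.add_apply, pow_add, Finset.prod_mul_distrib]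

lemma gp_dvd (G : Finset ℕ) {n : ℕ} (hn : n ≠ 0) : gp G n ∣ n := by
  conv_rhs => rw [← Nat.prod_factorization_pow_eq_self hn]
  rw [gp, Finsupp.prod, ← Finset.prod_subset (Finset.filter_subset (fun p => p ∈ n.factorization.support) G)]
  · refine Finset.prod_dvd_prod_of_subset _ _ _ ?_
    intro p hp
    exact (Finset.mem_filter.mp hp).2
  · intro p hp hp'
    have : n.factorization p = 0 := by
      by_contra h
      exact hp' (Finset.mem_filter.mpr ⟨hp, Finsupp.mem_support_iff.mpr h⟩)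
    rw [this, pow_zero]

lemma gp_pos (G : Finset ℕ) {n : ℕ} (hn : n ≠ 0) : 0 < gp G n :=
  Nat.pos_of_ne_zero fun h => hn (Nat.eq_zero_of_zero_dvd (h ▸ gp_dvd G hn))

lemma gp_le (G : Finset ℕ) {n : ℕ} (hn : n ≠ 0) : gp G n ≤ n :=
  Nat.le_of_dvd (Nat.pos_of_ne_zero hn) (gp_dvd G hn)

lemma gp_coprime (G : Finset ℕ) {a b : ℕ} (ha : a ≠ 0) (hb : b ≠ 0) (h : Nat.Coprime a b) :
    Nat.Coprime (gp G a) (gp G b) :=
  (h.coprime_dvd_left (gp_dvd G ha)).coprime_dvd_right (gp_dvd G hb)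

/-- The weight of a prime in `n`. -/
noncomputable def wgt (n p : ℕ) : ℝ := (n.factorization p : ℝ) * Real.log p

lemma wgt_nonneg (n p : ℕ) : 0 ≤ wgt n p :=
  mul_nonneg (Nat.cast_nonneg _) (Real.log_natCast_nonneg p)

lemma log_gp (G : Finset ℕ) (n : ℕ) : Real.log (gp G n) = ∑ p ∈ G, wgt n p := by
  rw [gp, Nat.cast_prod, Real.log_prod]
  · exact Finset.sum_congr rfl fun p _ => by rw [Nat.cast_pow, Real.log_pow]; rfl
  · intro p _ h
    rw [Nat.cast_pow, pow_eq_zero_iff'] at h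
    have hp0 : p = 0 := by exact_mod_cast h.1
    exact h.2 (by rw [hp0]; exact Nat.factorization_zero_right n)

lemma sum_wgt {U : Finset ℕ} {n : ℕ} (hn : n ≠ 0) (h : n.primeFactors ⊆ U) :
    ∑ p ∈ U, wgt n p = Real.log n := by
  rw [← log_gp]
  congr 2
  conv_rhs => rw [← Nat.prod_factorization_pow_eq_self hn]
  rw [gp, Finsupp.prod]
  symm
  refine Finset.prod_subset (by rwa [Nat.support_factorization]) fun p _ hp => ?_
  rw [Finsupp.notMem_support_iff.mp hp, pow_zero]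

/-- The second moment of a random subset sum. -/
lemma sum_powerset_sq (w : ℕ → ℝ) : ∀ U : Finset ℕ,
    ∑ G ∈ U.powerset, (2 * ∑ p ∈ G, w p - ∑ p ∈ U, w p) ^ 2
      = (2 : ℝ) ^ U.card * ∑ p ∈ U, w p ^ 2 := by
  intro U
  induction U using Finset.induction_on with
  | empty => simp
  | @insert a s ha ih =>
    rw [Finset.sum_powerset_insert ha, ← Finset.sum_add_distrib, Finset.sum_insert ha,
      Finset.sum_insert ha, Finset.card_insert_of_notMem ha, pow_succ]
    have e : ∀ G ∈ s.powerset, (2 * ∑ p ∈ G, w p - (w a + ∑ p ∈ s, w p)) ^ 2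
        + (2 * ∑ p ∈ insert a G, w p - (w a + ∑ p ∈ s, w p)) ^ 2
        = 2 * (2 * ∑ p ∈ G, w p - ∑ p ∈ s, w p) ^ 2 + 2 * w a ^ 2 := by
      intro G hG
      rw [Finset.sum_insert fun h => ha (Finset.mem_powerset.mp hG h)]
      ring
    rw [Finset.sum_congr rfl e, Finset.sum_add_distrib, ← Finset.mul_sum, ih, Finset.sum_const,
      Finset.card_powerset, nsmul_eq_mul]
    push_cast
    ring

open Classical in
/-- A fixed proportion of the subsets is balanced. -/
lemma many_good {U : Finset ℕ} {w : ℕ → ℝ} {W : ℝ} (hW : ∑ p ∈ U, w p = W) (hpos : 0 < W)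
    (hw : ∀ p ∈ U, 0 ≤ w p) (hmax : ∀ p ∈ U, w p ≤ 53 / 100 * W) :
    (2 : ℝ) ^ U.card ≤ 20 * ((U.powerset.filter fun G =>
      W / 8 ≤ ∑ p ∈ G, w p ∧ ∑ p ∈ G, w p ≤ 7 * W / 8).card : ℝ) := by
  set good := U.powerset.filter fun G =>
      W / 8 ≤ ∑ p ∈ G, w p ∧ ∑ p ∈ G, w p ≤ 7 * W / 8 with hgood
  set bad := U.powerset.filter fun G =>
      ¬ (W / 8 ≤ ∑ p ∈ G, w p ∧ ∑ p ∈ G, w p ≤ 7 * W / 8) with hbad
  have hcard : (good.card : ℝ) + bad.card = (2 : ℝ) ^ U.card := by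
    rw [hgood, hbad, ← Nat.cast_add, Finset.card_filter_add_card_filter_not, Finset.card_powerset]
    push_cast
    rfl
  have hsq : ∑ p ∈ U, w p ^ 2 ≤ 53 / 100 * W * W := by
    calc ∑ p ∈ U, w p ^ 2 ≤ ∑ p ∈ U, 53 / 100 * W * w p := Finset.sum_le_sum fun p hp => by
          rw [sq]; exact mul_le_mul_of_nonneg_right (hmax p hp) (hw p hp)
      _ = _ := by rw [← Finset.mul_sum, hW]
  have hbadb : (bad.card : ℝ) * (9 / 16 * W * W) ≤ (2 : ℝ) ^ U.card * (53 / 100 * W * W) := by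
    calc (bad.card : ℝ) * (9 / 16 * W * W) = ∑ _G ∈ bad, (9 / 16 * W * W) := by
          rw [Finset.sum_const, nsmul_eq_mul]
      _ ≤ ∑ G ∈ bad, (2 * ∑ p ∈ G, w p - ∑ p ∈ U, w p) ^ 2 := Finset.sum_le_sum fun G hG => by
          have h := (Finset.mem_filter.mp hG).2
          rw [hW]
          rw [not_and_or, not_le, not_le] at h
          rcases h with h | h <;> nlinarith
      _ ≤ ∑ G ∈ U.powerset, (2 * ∑ p ∈ G, w p - ∑ p ∈ U, w p) ^ 2 :=
          Finset.sum_le_sum_of_subset_of_nonneg (Finset.filter_subset _ _) fun G _ _ => sq_nonneg _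
      _ ≤ _ := by
          rw [sum_powerset_sq]
          exact mul_le_mul_of_nonneg_left hsq (pow_nonneg two_pos.le _)
  have hWW : 0 < W * W := mul_pos hpos hpos
  have h2 : (bad.card : ℝ) * (9 / 16) ≤ (2 : ℝ) ^ U.card * (53 / 100) := by
    refine le_of_mul_le_mul_right ?_ hWW
    linarith
  have hg0 : (0 : ℝ) ≤ good.card := Nat.cast_nonneg _
  linarith

open Classical in
/-- One set of primes balances a fixed proportion of the numbers. -/
lemma exists_good {α : Type*} (E : Finset α) (n : α → ℕ) (hn : ∀ e ∈ E, 1 < n e)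
    (hmax : ∀ e ∈ E, ∀ p, wgt (n e) p ≤ 53 / 100 * Real.log (n e)) :
    ∃ G : Finset ℕ, (E.card : ℝ) ≤ 20 * ((E.filter fun e =>
      Real.log (n e) / 8 ≤ Real.log (gp G (n e)) ∧
        Real.log (gp G (n e)) ≤ 7 * Real.log (n e) / 8).card : ℝ) := by
  set U := E.biUnion fun e => (n e).primeFactors with hU
  set good : Finset ℕ → α → Prop := fun G e => Real.log (n e) / 8 ≤ Real.log (gp G (n e)) ∧
    Real.log (gp G (n e)) ≤ 7 * Real.log (n e) / 8 with hgooddef
  have hper : ∀ e ∈ E, (2 : ℝ) ^ U.card ≤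
      20 * ((U.powerset.filter fun G => good G e).card : ℝ) := by
    intro e he
    have hne : n e ≠ 0 := by have := hn e he; omega
    have h := many_good (U := U) (w := wgt (n e))
      (sum_wgt hne (Finset.subset_biUnion_of_mem (fun e => (n e).primeFactors) he))
      (Real.log_pos (by exact_mod_cast hn e he))
      (fun p _ => wgt_nonneg _ _) (fun p _ => hmax e he p)
    simpa only [hgooddef, log_gp] using h
  by_contra hcon
  push Not at hcon
  have hswap : ∑ G ∈ U.powerset, ((E.filter fun e => good G e).card : ℝ) =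
      ∑ e ∈ E, ((U.powerset.filter fun G => good G e).card : ℝ) := by
    simp only [← Finset.sum_boole]
    exact Finset.sum_comm
  have h1 : ∑ G ∈ U.powerset, (20 * ((E.filter fun e => good G e).card : ℝ)) <
      ∑ _G ∈ U.powerset, (E.card : ℝ) :=
    Finset.sum_lt_sum_of_nonempty ⟨∅, Finset.empty_mem_powerset U⟩ fun G _ => hcon G
  rw [← Finset.mul_sum, hswap, Finset.mul_sum, Finset.sum_const, Finset.card_powerset,
    nsmul_eq_mul] at h1
  have h2 : ∑ _e ∈ E, (2 : ℝ) ^ U.card ≤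
      ∑ e ∈ E, 20 * ((U.powerset.filter fun G => good G e).card : ℝ) := Finset.sum_le_sum hper
  rw [Finset.sum_const, nsmul_eq_mul] at h2
  push_cast at h1
  linarith

/-- The geometric constant of the layers. -/
noncomputable def layerC (ε : ℝ) : ℝ := (1 - (2 : ℝ) ^ (-ε))⁻¹

open Classical in
/-- A bilinear bound on all rectangles gives one with square root weights. -/
lemma sum_layers {I : Finset (ℕ × ℕ)} {SV SW : Finset ℕ} (hI : I ⊆ SV ×ˢ SW) {n m : ℕ → ℕ}
    (hn : ∀ c ∈ SV, n c ≠ 0) (hm : ∀ c ∈ SW, m c ≠ 0) {D ε : ℝ} (hD : 0 ≤ D) (hε : 0 < ε)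
    (h : ∀ S T : Finset ℕ, S ⊆ SV → T ⊆ SW →
      ((I.filter fun x => x.1 ∈ S ∧ x.2 ∈ T).card : ℝ) ≤
        D * ((S.card : ℝ) * T.card) ^ (1 / 2 + ε)) :
    ∑ x ∈ I, Real.sqrt ((n x.1 : ℝ) * m x.2) ≤
      2 * D * layerC ε ^ 2 *
        ((((∑ c ∈ SV, n c : ℕ) : ℝ)) * ((∑ c ∈ SW, m c : ℕ) : ℝ)) ^ (1 / 2 + ε) := by
  set q : ℝ := (2 : ℝ) ^ (-ε) with hq
  have hq0 : 0 < q := Real.rpow_pos_of_pos two_pos _
  have hq1 : q < 1 := Real.rpow_lt_one_of_one_lt_of_neg one_lt_two (by linarith)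
  set NV : ℝ := ((∑ c ∈ SV, n c : ℕ) : ℝ) with hNV
  set NW : ℝ := ((∑ c ∈ SW, m c : ℕ) : ℝ) with hNW
  have hNV0 : 0 ≤ NV := Nat.cast_nonneg _
  have hNW0 : 0 ≤ NW := Nat.cast_nonneg _
  have hlayer : ∀ (SS : Finset ℕ) (f : ℕ → ℕ), (∀ c ∈ SS, f c ≠ 0) → ∀ s : ℕ,
      ((SS.filter fun c => Nat.log 2 (f c) = s).card : ℝ) ^ (1 / 2 + ε) *
        Real.sqrt ((2 : ℝ) ^ s) ≤ ((∑ c ∈ SS, f c : ℕ) : ℝ) ^ (1 / 2 + ε) * q ^ s := by
    intro SS f hf s
    have hc : (((SS.filter fun c => Nat.log 2 (f c) = s).card : ℕ) : ℝ) ≤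
        ((∑ c ∈ SS, f c : ℕ) : ℝ) / (2 : ℝ) ^ s := by
      rw [le_div_iff₀ (pow_pos two_pos s)]
      have : (SS.filter fun c => Nat.log 2 (f c) = s).card * 2 ^ s ≤ ∑ c ∈ SS, f c := by
        calc _ = ∑ _c ∈ SS.filter fun c => Nat.log 2 (f c) = s, 2 ^ s := by
              rw [Finset.sum_const, smul_eq_mul]
          _ ≤ ∑ c ∈ SS.filter fun c => Nat.log 2 (f c) = s, f c := by
              refine Finset.sum_le_sum fun c hc => ?_
              obtain ⟨hc1, hc2⟩ := Finset.mem_filter.mp hc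
              rw [← hc2]
              exact Nat.pow_log_le_self 2 (hf c hc1)
          _ ≤ _ := Finset.sum_le_sum_of_subset (Finset.filter_subset _ _)
      exact_mod_cast this
    have h2s : (0 : ℝ) < (2 : ℝ) ^ s := pow_pos two_pos s
    refine (mul_le_mul_of_nonneg_right (Real.rpow_le_rpow (Nat.cast_nonneg _) hc (by positivity))
      (Real.sqrt_nonneg _)).trans (le_of_eq ?_)
    rw [Real.div_rpow (Nat.cast_nonneg _) h2s.le, hq, div_mul_eq_mul_div, mul_div_assoc]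
    congr 1
    rw [Real.sqrt_eq_rpow, ← Real.rpow_sub h2s, ← Real.rpow_natCast 2 s, ← Real.rpow_mul two_pos.le,
      ← Real.rpow_natCast ((2 : ℝ) ^ (-ε)) s, ← Real.rpow_mul two_pos.le]
    congr 1
    ring
  set key : ℕ × ℕ → ℕ × ℕ := fun x => (Nat.log 2 (n x.1), Nat.log 2 (m x.2)) with hkey
  set KS := (SV.image fun c => Nat.log 2 (n c)) ×ˢ (SW.image fun c => Nat.log 2 (m c)) with hKS
  have hmaps : ∀ x ∈ I, key x ∈ KS := fun x hx => by
    obtain ⟨h1, h2⟩ := Finset.mem_product.mp (hI hx)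
    exact Finset.mem_product.mpr ⟨Finset.mem_image_of_mem _ h1, Finset.mem_image_of_mem _ h2⟩
  rw [← Finset.sum_fiberwise_of_maps_to hmaps]
  have hcls : ∀ k ∈ KS, ∑ x ∈ I.filter (fun x => key x = k), Real.sqrt ((n x.1 : ℝ) * m x.2) ≤
      2 * D * (NV * NW) ^ (1 / 2 + ε) * (q ^ k.1 * q ^ k.2) := by
    rintro ⟨s, t⟩ -
    set S := SV.filter fun c => Nat.log 2 (n c) = s with hS
    set T := SW.filter fun c => Nat.log 2 (m c) = t with hT
    have hsub : I.filter (fun x => key x = (s, t)) ⊆ I.filter fun x => x.1 ∈ S ∧ x.2 ∈ T := by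
      intro x hx
      obtain ⟨hxI, hxk⟩ := Finset.mem_filter.mp hx
      obtain ⟨h1, h2⟩ := Finset.mem_product.mp (hI hxI)
      simp only [hkey, Prod.mk.injEq] at hxk
      exact Finset.mem_filter.mpr
        ⟨hxI, Finset.mem_filter.mpr ⟨h1, hxk.1⟩, Finset.mem_filter.mpr ⟨h2, hxk.2⟩⟩
    have hterm : ∀ x ∈ I.filter (fun x => key x = (s, t)),
        Real.sqrt ((n x.1 : ℝ) * m x.2) ≤
          2 * (Real.sqrt ((2 : ℝ) ^ s) * Real.sqrt ((2 : ℝ) ^ t)) := by
      intro x hx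
      obtain ⟨-, hxk⟩ := Finset.mem_filter.mp hx
      simp only [hkey, Prod.mk.injEq] at hxk
      have a1 : (n x.1 : ℝ) ≤ (2 : ℝ) ^ (s + 1) := by
        exact_mod_cast (hxk.1 ▸ Nat.lt_pow_succ_log_self one_lt_two (n x.1)).le
      have a2 : (m x.2 : ℝ) ≤ (2 : ℝ) ^ (t + 1) := by
        exact_mod_cast (hxk.2 ▸ Nat.lt_pow_succ_log_self one_lt_two (m x.2)).le
      refine (Real.sqrt_le_sqrt (mul_le_mul a1 a2 (Nat.cast_nonneg _) (by positivity))).trans
        (le_of_eq ?_)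
      rw [Real.sqrt_mul (by positivity), pow_succ, pow_succ, Real.sqrt_mul (by positivity),
        Real.sqrt_mul (by positivity)]
      linear_combination (Real.sqrt ((2 : ℝ) ^ s) * Real.sqrt ((2 : ℝ) ^ t)) *
        Real.mul_self_sqrt (two_pos (α := ℝ)).le
    refine (Finset.sum_le_card_nsmul _ _ _ hterm).trans ?_
    rw [nsmul_eq_mul]
    have hcard : ((I.filter fun x => key x = (s, t)).card : ℝ) ≤
        D * ((S.card : ℝ) * T.card) ^ (1 / 2 + ε) :=
      le_trans (by exact_mod_cast Finset.card_le_card hsub)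
        (h S T (Finset.filter_subset _ _) (Finset.filter_subset _ _))
    refine (mul_le_mul_of_nonneg_right hcard (by positivity)).trans ?_
    rw [Real.mul_rpow (Nat.cast_nonneg _) (Nat.cast_nonneg _), Real.mul_rpow hNV0 hNW0]
    have hs := hlayer SV n hn s
    have ht := hlayer SW m hm t
    have := mul_le_mul hs ht (by positivity) (by positivity)
    calc _ = 2 * D * (((S.card : ℝ) ^ (1 / 2 + ε) * Real.sqrt ((2 : ℝ) ^ s)) *
          ((T.card : ℝ) ^ (1 / 2 + ε) * Real.sqrt ((2 : ℝ) ^ t))) := by ring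
      _ ≤ 2 * D * ((NV ^ (1 / 2 + ε) * q ^ s) * (NW ^ (1 / 2 + ε) * q ^ t)) :=
          mul_le_mul_of_nonneg_left this (by positivity)
      _ = _ := by ring
  refine (Finset.sum_le_sum hcls).trans ?_
  rw [← Finset.mul_sum]
  have hgeo : ∀ S : Finset ℕ, ∑ s ∈ S, q ^ s ≤ layerC ε := fun S => by
    rw [layerC, ← hq, ← tsum_geometric_of_lt_one hq0.le hq1]
    exact (summable_geometric_of_lt_one hq0.le hq1).sum_le_tsum S fun i _ => pow_nonneg hq0.le i
  have hLC : 0 ≤ layerC ε := le_trans (Finset.sum_nonneg fun i _ => pow_nonneg hq0.le i) (hgeo ∅)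
  rw [hKS, Finset.sum_product, ← Finset.sum_mul_sum]
  calc _ ≤ 2 * D * (NV * NW) ^ (1 / 2 + ε) * (layerC ε * layerC ε) := by
        refine mul_le_mul_of_nonneg_left ?_ (by positivity)
        exact mul_le_mul (hgeo _) (hgeo _) (Finset.sum_nonneg fun i _ => pow_nonneg hq0.le i) hLC
    _ = _ := by ring

/-- One class of a coprime product in an interval. -/
lemma card_class {α : Type*} (S : Finset α) (f : α → ℤ) (hf : Set.InjOn f S) {P : ℕ} (hP : 0 < P)
    {A : ℝ} (hA : 0 ≤ A) (hd : ∀ x ∈ S, ∀ x' ∈ S, (P : ℤ) ∣ f x - f x')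
    (hs : ∀ x ∈ S, ∀ x' ∈ S, (f x : ℝ) - f x' ≤ A) : (S.card : ℝ) ≤ A / P + 1 := by
  have hP' : (0 : ℤ) < P := by exact_mod_cast hP
  have key : ∀ x ∈ S, ∀ x' ∈ S, f x - f x' = (P : ℤ) * (f x / P - f x' / P) := by
    intro x hx x' hx'
    obtain ⟨s, hs⟩ := hd x hx x' hx'
    have e : f x = f x' + (P : ℤ) * s := by linarith
    rw [e, Int.add_mul_ediv_left _ _ hP'.ne']
    ring
  refine card_le_of_span S (fun x => f x / P) ?_ (L := A / P) (by positivity) ?_
  · intro x hx x' hx' he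
    simp only at he
    refine hf hx hx' ?_
    have := key x hx x' hx'
    rw [he, sub_self, mul_zero, sub_eq_zero] at this
    exact this
  · intro x hx x' hx'
    rw [le_div_iff₀ (by exact_mod_cast hP : (0 : ℝ) < P)]
    refine le_trans (le_of_eq ?_) (hs x hx x' hx')
    have e : ((f x - f x' : ℤ) : ℝ) = (((P : ℤ) * (f x / P - f x' / P) : ℤ) : ℝ) := by
      rw [key x hx x' hx']
    push_cast at e
    linarith

open Classical in
/-- The edges over one pair of classes. -/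
lemma card_fibre_le {E : Finset (ℕ × ℕ)} {Vc Wc K : Finset ℕ} {a1 b1 : ℕ} {A B : ℝ}
    (hA : 0 ≤ A) (hB : 0 ≤ B) (ha1 : 0 < a1) (hb1 : 0 < b1) (hco : Nat.Coprime a1 b1)
    (hV : ∀ e ∈ E, e.1 ∈ Vc) (hW : ∀ e ∈ E, e.2 ∈ Wc)
    (hpos : ∀ e ∈ E, 0 < e.1 ∧ 0 < e.2)
    (hk : ∀ e ∈ E, ∃ k ∈ K, cof e.2 e.1 = cof e.1 e.2 + k)
    (ha : ∀ e ∈ E, a1 ∣ cof e.1 e.2 ∧ b1 ∣ cof e.2 e.1)
    (hAi : ∀ e ∈ E, A ≤ cof e.1 e.2 ∧ (cof e.1 e.2 : ℝ) ≤ 2 * A)
    (hBi : ∀ e ∈ E, B ≤ cof e.2 e.1 ∧ (cof e.2 e.1 : ℝ) ≤ 2 * B) :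
    (E.card : ℝ) ≤ K.card *
      (Real.sqrt ((Vc.card : ℝ) * Wc.card) *
        Real.sqrt ((A / (a1 * b1 : ℕ) + 1) * (B / (a1 * b1 : ℕ) + 1))) := by
  choose! k hkK hkeq using hk
  have hkdiv : ∀ e ∈ E, ∀ e' ∈ E, k e = k e' →
      ((a1 * b1 : ℕ) : ℤ) ∣ (cof e.1 e.2 : ℤ) - cof e'.1 e'.2 ∧
      ((a1 * b1 : ℕ) : ℤ) ∣ (cof e.2 e.1 : ℤ) - cof e'.2 e'.1 := by
    intro e he e' he' hkk
    have hd : (cof e.2 e.1 : ℤ) - cof e'.2 e'.1 = (cof e.1 e.2 : ℤ) - cof e'.1 e'.2 := by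
      rw [hkeq e he, hkeq e' he', hkk]; push_cast; ring
    have h1 : (a1 : ℤ) ∣ (cof e.1 e.2 : ℤ) - cof e'.1 e'.2 :=
      dvd_sub (Int.natCast_dvd_natCast.mpr (ha e he).1) (Int.natCast_dvd_natCast.mpr (ha e' he').1)
    have h2 : (b1 : ℤ) ∣ (cof e.1 e.2 : ℤ) - cof e'.1 e'.2 :=
      hd ▸ dvd_sub (Int.natCast_dvd_natCast.mpr (ha e he).2)
        (Int.natCast_dvd_natCast.mpr (ha e' he').2)
    have h3 : ((a1 * b1 : ℕ) : ℤ) ∣ (cof e.1 e.2 : ℤ) - cof e'.1 e'.2 := by
      push_cast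
      exact (Nat.isCoprime_iff_coprime.mpr hco).mul_dvd h1 h2
    exact ⟨h3, hd.symm ▸ h3⟩
  have hP : 0 < a1 * b1 := Nat.mul_pos ha1 hb1
  have side1 : (E.card : ℝ) ≤ ((Vc.card : ℝ) * K.card) * (A / (a1 * b1 : ℕ) + 1) := by
    refine card_le_image_mul E (fun e => (e.1, k e)) (by positivity) ?_ ?_
    · have : E.image (fun e => (e.1, k e)) ⊆ Vc ×ˢ K := by
        intro x hx
        obtain ⟨e, he, rfl⟩ := Finset.mem_image.mp hx
        exact Finset.mem_product.mpr ⟨hV e he, hkK e he⟩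
      exact_mod_cast (Finset.card_le_card this).trans_eq (Finset.card_product _ _)
    · intro x _
      refine card_class _ (fun e => (cof e.1 e.2 : ℤ)) ?_ hP hA ?_ ?_
      · intro e he e' he' hee
        simp only [Finset.coe_filter, Set.mem_ofPred_eq] at he he'
        have hxe : (e.1, k e) = (e'.1, k e') := he.2.trans he'.2.symm
        simp only [Prod.mk.injEq] at hxe
        have hcof : cof e.1 e.2 = cof e'.1 e'.2 := Int.ofNat_inj.mp hee
        have hcof2 : cof e.2 e.1 = cof e'.2 e'.1 := by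
          rw [hkeq e he.1, hkeq e' he'.1, hcof, hxe.2]
        obtain ⟨h1, h2, h3, -, -⟩ := cof_spec (hpos e he.1).1 (hpos e he.1).2
        obtain ⟨h1', h2', -, -, -⟩ := cof_spec (hpos e' he'.1).1 (hpos e' he'.1).2
        have hg : Nat.gcd e.1 e.2 = Nat.gcd e'.1 e'.2 := by
          refine Nat.eq_of_mul_eq_mul_right h3 ?_
          rw [← h1, hcof, ← h1', hxe.1]
        refine Prod.ext hxe.1 ?_
        rw [h2, h2', hg, hcof2]
      · intro e he e' he'
        simp only [Finset.mem_filter] at he he'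
        have hxe := he.2.trans he'.2.symm
        simp only [Prod.mk.injEq] at hxe
        exact (hkdiv e he.1 e' he'.1 hxe.2).1
      · intro e he e' he'
        simp only [Finset.mem_filter] at he he'
        push_cast
        linarith [(hAi e he.1).2, (hAi e' he'.1).1]
  have side2 : (E.card : ℝ) ≤ ((Wc.card : ℝ) * K.card) * (B / (a1 * b1 : ℕ) + 1) := by
    refine card_le_image_mul E (fun e => (e.2, k e)) (by positivity) ?_ ?_
    · have : E.image (fun e => (e.2, k e)) ⊆ Wc ×ˢ K := by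
        intro x hx
        obtain ⟨e, he, rfl⟩ := Finset.mem_image.mp hx
        exact Finset.mem_product.mpr ⟨hW e he, hkK e he⟩
      exact_mod_cast (Finset.card_le_card this).trans_eq (Finset.card_product _ _)
    · intro x _
      refine card_class _ (fun e => (cof e.2 e.1 : ℤ)) ?_ hP hB ?_ ?_
      · intro e he e' he' hee
        simp only [Finset.coe_filter, Set.mem_ofPred_eq] at he he'
        have hxe : (e.2, k e) = (e'.2, k e') := he.2.trans he'.2.symm
        simp only [Prod.mk.injEq] at hxe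
        have hcof2 : cof e.2 e.1 = cof e'.2 e'.1 := Int.ofNat_inj.mp hee
        have hcof : cof e.1 e.2 = cof e'.1 e'.2 := by
          have := hkeq e he.1
          have := hkeq e' he'.1
          have := hxe.2
          omega
        obtain ⟨h1, h2, -, h4, -⟩ := cof_spec (hpos e he.1).1 (hpos e he.1).2
        obtain ⟨h1', h2', -, -, -⟩ := cof_spec (hpos e' he'.1).1 (hpos e' he'.1).2
        have hg : Nat.gcd e.1 e.2 = Nat.gcd e'.1 e'.2 := by
          refine Nat.eq_of_mul_eq_mul_right h4 ?_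
          rw [← h2, hcof2, ← h2', hxe.1]
        refine Prod.ext ?_ hxe.1
        rw [h1, h1', hg, hcof]
      · intro e he e' he'
        simp only [Finset.mem_filter] at he he'
        have hxe := he.2.trans he'.2.symm
        simp only [Prod.mk.injEq] at hxe
        exact (hkdiv e he.1 e' he'.1 hxe.2).2
      · intro e he e' he'
        simp only [Finset.mem_filter] at he he'
        push_cast
        linarith [(hBi e he.1).2, (hBi e' he'.1).1]
  set pa : ℝ := A / (a1 * b1 : ℕ) + 1 with hpa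
  set pb : ℝ := B / (a1 * b1 : ℕ) + 1 with hpb
  have hpa0 : 0 ≤ pa := by positivity
  have hpb0 : 0 ≤ pb := by positivity
  have hn0 : (0 : ℝ) ≤ (Vc.card : ℝ) * Wc.card := by positivity
  rw [← Real.sqrt_mul hn0, ← Real.sqrt_sq (Nat.cast_nonneg K.card),
    ← Real.sqrt_mul (sq_nonneg _)]
  refine Real.le_sqrt_of_sq_le ?_
  have := mul_le_mul side1 side2 (Nat.cast_nonneg _) (by positivity)
  rw [sq (E.card : ℝ)]
  refine this.trans (le_of_eq ?_)
  ring

end Vale.Agent.P028.DS.SmallBox
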