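import Vale.Agent.P028.DS.SmallBox.Kset
import Vale.Agent.P028.DS.SmallBox.Proj

/-!
P028, milestone A, small boxes: the two ways of bounding one dyadic box.
-/

namespace Vale.Agent.P028.DS.SmallBox

open Finset Real

/-- A balanced live edge with `a < b` small. -/
def Half (γ : ℝ) (ψ : ℕ → ℝ) (i v w : ℕ) : Prop :=
  cof v w < cof w v ∧ Live γ ψ v w ∧ Bal ψ i v w ∧ (cof w v : ℝ) ≤ p2 (10300 * i)

/-- An edge in the dyadic box `(α, β)`. -/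
def InBox (γ : ℝ) (ψ : ℕ → ℝ) (i α β v w : ℕ) : Prop :=
  Half γ ψ i v w ∧ Nat.log 2 (cof v w) = α ∧ Nat.log 2 (cof w v) = β

variable {γ : ℝ} {ψ : ℕ → ℝ} {F : Finset ℕ} {i α β : ℕ}

lemma mem_edges {E : ℕ → ℕ → Prop} {x : ℕ × ℕ} :
    x ∈ edges E F F ↔ (x.1 ∈ F ∧ x.2 ∈ F) ∧ E x.1 x.2 := by
  classical
  simp [edges]

lemma log_range {n m : ℕ} (hn : 0 < n) (h : Nat.log 2 n = m) :
    p2 m ≤ (n : ℝ) ∧ (n : ℝ) < p2 ((m : ℤ) + 1) := by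
  subst h
  constructor
  · rw [p2_nat]; exact_mod_cast Nat.pow_log_le_self 2 hn.ne'
  · rw [show ((Nat.log 2 n : ℕ) : ℤ) + 1 = ((Nat.log 2 n + 1 : ℕ) : ℤ) by push_cast; ring, p2_nat]
    exact_mod_cast Nat.lt_pow_succ_log_self one_lt_two n

/-- The bounds carried by an edge of a box. -/
lemma edge_facts (h0 : 0 ∉ F) (hψ : ∀ q, 0 ≤ ψ q) {e : ℕ × ℕ}
    (he : e ∈ edges (InBox γ ψ i α β) F F) :
    (0 < e.1 ∧ 0 < e.2) ∧
    (p2 α ≤ (cof e.1 e.2 : ℝ) ∧ (cof e.1 e.2 : ℝ) < p2 ((α : ℤ) + 1)) ∧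
    (p2 β ≤ (cof e.2 e.1 : ℝ) ∧ (cof e.2 e.1 : ℝ) < p2 ((β : ℤ) + 1)) ∧
    (p2 (-(10002 * (i : ℤ)) - β - 1) ≤ ψ e.1 ∧ ψ e.1 ≤ p2 (-(10000 * (i : ℤ)) - β)) ∧
    (p2 (-(10002 * (i : ℤ)) - α - 1) ≤ ψ e.2 ∧ ψ e.2 ≤ p2 (-(10000 * (i : ℤ)) - α)) ∧
    (∃ (k : ℕ) (L : ℤ), cof e.2 e.1 = cof e.1 e.2 + k ∧ 1 ≤ k ∧ k ≤ 2 ^ (β + 1) ∧
      |(L : ℝ) + γ * k| < 2 * p2 (-(10000 * (i : ℤ))) ∧
      (2 ≤ cof e.1 e.2 →
        ((approx γ (ψ e.1)).2 : ℤ) * L + (approx γ (ψ e.1)).1 * (k : ℤ) ≠ 0) ∧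
      (2 ≤ cof e.2 e.1 →
        ((approx γ (ψ e.2)).2 : ℤ) * L + (approx γ (ψ e.2)).1 * (k : ℤ) ≠ 0)) ∧
    β ≤ 10300 * i ∧ α ≤ β := by
  obtain ⟨⟨hv, hw⟩, ⟨hlt, hlive, hbal, hZ⟩, hα, hβ⟩ := mem_edges.mp he
  have hv0 : 0 < e.1 := Nat.pos_of_ne_zero fun h => h0 (h ▸ hv)
  have hw0 : 0 < e.2 := Nat.pos_of_ne_zero fun h => h0 (h ▸ hw)
  obtain ⟨-, -, ha0, hb0, -⟩ := cof_spec hv0 hw0
  have hA := log_range ha0 hα
  have hB := log_range hb0 hβ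
  have hy : lvl i = p2 (-(10000 * (i : ℤ))) := by rw [lvl_eq, expN_eq]
  have hlo : lvl i / zpar i ^ 2 = p2 (-(10002 * (i : ℤ))) := by
    rw [hy, zpar_eq, p2_pow, p2_div]; congr 1; push_cast; ring
  obtain ⟨b1, b2, b3, b4⟩ := hbal
  rw [hlo] at b1 b3
  rw [hy] at b2 b4
  have upper : ∀ (c : ℝ) (m : ℤ) (t : ℝ), 0 ≤ t → p2 m ≤ c → c * t ≤ p2 (-(10000 * (i : ℤ))) →
      t ≤ p2 (-(10000 * (i : ℤ)) - m) := fun c m t ht hm h => by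
    rw [← p2_div, le_div_iff₀ (p2_pos m)]
    exact le_trans (by rw [mul_comm]; exact mul_le_mul_of_nonneg_right hm ht) h
  have lower : ∀ (c : ℝ) (m : ℤ) (t : ℝ), 0 ≤ t → c ≤ p2 (m + 1) →
      p2 (-(10002 * (i : ℤ))) ≤ c * t → p2 (-(10002 * (i : ℤ)) - m - 1) ≤ t :=
    fun c m t ht hm h => by
    rw [show -(10002 * (i : ℤ)) - m - 1 = -(10002 * (i : ℤ)) - (m + 1) by ring, ← p2_div,
      div_le_iff₀ (p2_pos _)]
    exact (h.trans (mul_le_mul_of_nonneg_right hm ht)).trans_eq (mul_comm _ _)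
  refine ⟨⟨hv0, hw0⟩, hA, hB,
    ⟨lower _ _ _ (hψ _) hB.2.le b1, upper _ _ _ (hψ _) hB.1 b2⟩,
    ⟨lower _ _ _ (hψ _) hA.2.le b3, upper _ _ _ (hψ _) hA.1 b4⟩, ?_, ?_, ?_⟩
  · obtain ⟨L, hL, hk1, hk2⟩ := hlive
    have hkc : ((cof e.2 e.1 - cof e.1 e.2 : ℕ) : ℤ) = (cof e.2 e.1 : ℤ) - cof e.1 e.2 :=
      Int.ofNat_sub hlt.le
    refine ⟨cof e.2 e.1 - cof e.1 e.2, L, by omega, by omega, ?_, ?_, ?_, ?_⟩
    · have : cof e.2 e.1 < 2 ^ (β + 1) := hβ ▸ Nat.lt_pow_succ_log_self one_lt_two _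
      omega
    · rw [Nat.cast_sub hlt.le]
      refine hL.trans_le (mul_le_mul_of_nonneg_left ?_ two_pos.le)
      exact max_le b2 b4
    · rw [hkc]; exact hk1
    · rw [hkc]; exact hk2
  · have h : p2 β ≤ p2 (10300 * i) := hB.1.trans hZ
    by_contra hcon
    have hcon' : (10300 * (i : ℤ)) < (β : ℤ) := by omega
    exact absurd h (not_le.mpr (p2_lt hcon'))
  · rw [← hα, ← hβ]; exact Nat.log_mono_right hlt.le

/-- The differences of a box. -/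
noncomputable def boxK (γ : ℝ) (i β : ℕ) : Finset ℕ :=
  kset γ (p2 (-(10000 * (i : ℤ)))) (2 ^ (β + 1))

/-- Few differences from one live edge, trimmed at radius `δ ≤ 2 ^ (-10000 i - μ)`. -/
lemma card_boxK (hi : 1 ≤ i) {k₀ : ℕ} {L₀ : ℤ} {δ : ℝ} {ρ μ : ℤ}
    (hk : 1 ≤ k₀) (hkB : k₀ ≤ 2 ^ (β + 1))
    (hL : |(L₀ : ℝ) + γ * k₀| < 2 * p2 (-(10000 * (i : ℤ))))
    (hlive : ((approx γ δ).2 : ℤ) * L₀ + (approx γ δ).1 * (k₀ : ℤ) ≠ 0)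
    (hδlo : p2 (-(10002 * (i : ℤ)) - μ - 1) ≤ δ) (hδhi : δ ≤ p2 (-(10000 * (i : ℤ)) - μ))
    (hμ : 0 ≤ μ) (hμβ : μ ≤ β) (hβ : β ≤ 10300 * i) (hρ : 0 ≤ ρ)
    (hρδ : 50 * ρ ≤ 24 * (10000 * (i : ℤ) + μ)) :
    ρ ≤ β ∧ ((boxK γ i β).card : ℝ) ≤ p2 ((β : ℤ) + 1 - ρ) + p2 (709 * (i : ℤ)) := by
  have hiz : (1 : ℤ) ≤ i := by exact_mod_cast hi
  have hδ0 : 0 < δ := (p2_pos _).trans_le hδlo
  have hδ50 : δ < (1 / 2) ^ 50 := by
    refine hδhi.trans_lt ?_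
    have h50 : ((1 : ℝ) / 2) ^ 50 = p2 (-50) := by
      rw [p2, zpow_neg, one_div, inv_pow]
      norm_cast
    rw [h50]
    exact p2_lt (by omega)
  have hRδ : p2 ρ ^ 50 * δ ^ 24 ≤ 1 := by
    refine (mul_le_mul_of_nonneg_left (pow_le_pow_left₀ hδ0.le hδhi 24)
      (pow_nonneg (p2_nonneg _) _)).trans ?_
    rw [p2_pow, p2_pow, ← p2_add, ← p2_zero]
    exact p2_le (by push_cast; omega)
  have hρβ : ρ ≤ β := by
    by_contra hcon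
    apply hlive
    refine dead hδ0 hδ50 (y := p2 (-(10000 * (i : ℤ)))) ?_ hk ?_ hL
    · refine le_trans ?_ hδlo
      rw [← p2_one, ← p2_add, p2_pow]
      exact p2_le (by push_cast; omega)
    · refine le_trans (mul_le_mul_of_nonneg_right (pow_le_pow_left₀ (Nat.cast_nonneg _) ?_ 50)
        (pow_nonneg hδ0.le _)) hRδ
      refine le_trans (b := p2 ((β + 1 : ℕ) : ℤ)) ?_ (p2_le (by push_cast; omega))
      rw [p2_nat]
      exact_mod_cast hkB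
  refine ⟨hρβ, ?_⟩
  have hBp : (((2 : ℕ) ^ (β + 1) : ℕ) : ℝ) = p2 ((β : ℤ) + 1) := by
    rw [show (β : ℤ) + 1 = ((β + 1 : ℕ) : ℤ) by push_cast; ring, p2_nat]; push_cast; rfl
  set y : ℝ := p2 (-(10000 * (i : ℤ))) with hy
  set η : ℝ := p2 (-(10400 * (i : ℤ))) with hη
  have hyR : y * p2 ρ ≤ 1 := by
    rw [hy, ← p2_add, ← p2_zero]; exact p2_le (by omega)
  have h := card_kset_le (γ := γ) (δ := δ) (y := y) (R := p2 ρ) (η₀ := η) (B := 2 ^ (β + 1))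
    (p2_pos _) hδ0 hδ50 (one_le_p2 hρ) hRδ (p2_pos _) ?_ ?_ hkB hL hlive
  · refine h.trans ?_
    rw [hBp, p2_div]
    have h1 : p2 ((β : ℤ) + 1) * y ≤ p2 (301 * (i : ℤ)) := by
      rw [hy, ← p2_add]; exact p2_le (by omega)
    have h2 : y / η = p2 (400 * (i : ℤ)) := by
      rw [hy, hη, p2_div]; congr 1; ring
    have h3 : 1 ≤ p2 (301 * (i : ℤ)) := one_le_p2 (by omega)
    have h4 : 1 ≤ p2 (400 * (i : ℤ)) := one_le_p2 (by omega)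
    have a1 : 2 * (2 * y * p2 ρ + p2 ((β : ℤ) + 1) * (4 * y)) + 1 ≤ 16 * p2 (301 * (i : ℤ)) := by
      linarith
    have a2 : 4 * y / η + 1 ≤ 8 * p2 (400 * (i : ℤ)) := by
      rw [mul_div_assoc, h2]; linarith
    have hy0 : 0 ≤ y := p2_nonneg _
    have a3 := mul_le_mul a1 a2
      (add_nonneg (div_nonneg (by linarith) (p2_nonneg _)) zero_le_one)
      (mul_nonneg (by norm_num) (p2_nonneg _))
    have e : 16 * p2 (301 * (i : ℤ)) * (8 * p2 (400 * (i : ℤ))) ≤ p2 (708 * (i : ℤ)) := by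
      rw [show (16 : ℝ) = p2 4 by rw [p2]; norm_num, show (8 : ℝ) = p2 3 by rw [p2]; norm_num,
        ← p2_add, ← p2_add, ← p2_add]
      exact p2_le (by omega)
    have e2 : p2 (708 * (i : ℤ)) + 1 ≤ p2 (709 * (i : ℤ)) := by
      refine le_trans (b := p2 (708 * (i : ℤ) + 1)) ?_ (p2_le (by omega))
      rw [p2_add, p2_one]
      linarith [one_le_p2 (x := 708 * (i : ℤ)) (by omega)]
    linarith
  · rw [hη, p2_pow]
    exact le_trans (p2_le (by push_cast; omega)) hδlo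
  · rw [hBp, hη, ← p2_add]
    have a1 : y * p2 ρ ≤ p2 (-2) := by rw [hy, ← p2_add]; exact p2_le (by omega)
    have a2 : p2 ((β : ℤ) + 1 + -(10400 * (i : ℤ))) ≤ p2 (-2) := p2_le (by omega)
    have a3 : p2 (-2) = 1 / 4 := by rw [p2]; norm_num
    linarith

/-- A box whose numerators of `v` form a short range. -/
lemma box_degree (h0 : 0 ∉ F) (hψ : ∀ q, 0 ≤ ψ q) {S : ℝ}
    (hS : p2 α * ((boxK γ i β).card : ℝ) * p2 (-(10000 * (i : ℤ)) - β) ≤ S) :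
    edgeSum (InBox γ ψ i α β) ψ ψ F F ≤ S * ∑ q ∈ F, ψ q := by
  classical
  rw [edgeSum_eq]
  set E := edges (InBox γ ψ i α β) F F with hE
  have hmaps : ∀ e ∈ E, e.2 ∈ F := fun e he => (mem_edges.mp he).1.2
  rw [← Finset.sum_fiberwise_of_maps_to hmaps, Finset.mul_sum]
  refine Finset.sum_le_sum fun w _ => ?_
  have hpt : ∀ e ∈ E.filter (fun e => e.2 = w),
      ψ e.1 * ψ e.2 ≤ p2 (-(10000 * (i : ℤ)) - β) * ψ w := by
    intro e he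
    obtain ⟨he1, rfl⟩ := Finset.mem_filter.mp he
    exact mul_le_mul_of_nonneg_right (edge_facts h0 hψ he1).2.2.2.1.2 (hψ _)
  refine (Finset.sum_le_card_nsmul _ _ _ hpt).trans ?_
  rw [nsmul_eq_mul, ← mul_assoc]
  refine mul_le_mul_of_nonneg_right (le_trans ?_ hS) (hψ w)
  refine mul_le_mul_of_nonneg_right ?_ (p2_nonneg _)
  have hinj : Set.InjOn (fun e : ℕ × ℕ => (cof e.1 e.2, cof e.2 e.1 - cof e.1 e.2))
      (E.filter fun e => e.2 = w) := by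
    intro e he e' he' hee
    simp only [Finset.coe_filter, Set.mem_ofPred_eq] at he he'
    simp only [Prod.mk.injEq] at hee
    obtain ⟨hp, -, -, -, -, ⟨k, L, hk, -⟩, -⟩ := edge_facts h0 hψ he.1
    obtain ⟨hp', -, -, -, -, ⟨k', L', hk', -⟩, -⟩ := edge_facts h0 hψ he'.1
    have hb : cof e.2 e.1 = cof e'.2 e'.1 := by omega
    obtain ⟨h1, h2, -, h4, -⟩ := cof_spec hp.1 hp.2
    obtain ⟨h1', h2', -, -, -⟩ := cof_spec hp'.1 hp'.2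
    have he2 : e.2 = e'.2 := he.2.trans he'.2.symm
    have hg : Nat.gcd e.1 e.2 = Nat.gcd e'.1 e'.2 := by
      refine Nat.eq_of_mul_eq_mul_right h4 ?_
      rw [← h2, hb, ← h2', he2]
    refine Prod.ext ?_ he2
    rw [h1, h1', hg, hee.1]
  have hsub : ∀ e ∈ E.filter (fun e => e.2 = w),
      (cof e.1 e.2, cof e.2 e.1 - cof e.1 e.2) ∈ Finset.Ico (2 ^ α) (2 ^ (α + 1)) ×ˢ boxK γ i β := by
    intro e he
    obtain ⟨he1, -⟩ := Finset.mem_filter.mp he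
    obtain ⟨-, hA, -, -, -, ⟨k, L, hk, hk1, hk2, hL, -⟩, -⟩ := edge_facts h0 hψ he1
    refine Finset.mem_product.mpr ⟨Finset.mem_Ico.mpr ⟨?_, ?_⟩, ?_⟩
    · have := hA.1; rw [p2_nat] at this; exact_mod_cast this
    · have := hA.2
      rw [show (α : ℤ) + 1 = ((α + 1 : ℕ) : ℤ) by push_cast; ring, p2_nat] at this
      exact_mod_cast this
    · rw [show cof e.2 e.1 - cof e.1 e.2 = k by omega]
      exact mem_kset.mpr ⟨⟨hk1, hk2⟩, L, hL⟩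
  have hc := Finset.card_le_card_of_injOn _ hsub hinj
  rw [Finset.card_product, Nat.card_Ico] at hc
  rw [p2_nat]
  have e : 2 ^ (α + 1) - 2 ^ α = 2 ^ α := by rw [pow_succ]; omega
  rw [e] at hc
  exact_mod_cast hc

/-- The constant of the projected bound. -/
noncomputable def projC (C₀ ρ : ℝ) : ℝ :=
  20 * (C₀ * (ρ ^ 2) ^ ((1 : ℝ) / 2 - 1 / 100000) * 4 * layerC (1 / 100000) ^ 2)

end Vale.Agent.P028.DS.SmallBox
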