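import Vale.Agent.P028.DS.SmallBox.Basic

/-!
P028, milestone A, small boxes: the possible differences of two cofactors.
-/

namespace Vale.Agent.P028.DS.SmallBox

open Finset Real

open Classical in
/-- The differences `k ≤ B` at which `γ k` is `2 y`-close to an integer. -/
noncomputable def kset (γ y : ℝ) (B : ℕ) : Finset ℕ :=
  (Finset.Icc 1 B).filter fun k => ∃ L : ℤ, |(L : ℝ) + γ * k| < 2 * y

lemma mem_kset {γ y : ℝ} {B k : ℕ} :
    k ∈ kset γ y B ↔ (1 ≤ k ∧ k ≤ B) ∧ ∃ L : ℤ, |(L : ℝ) + γ * k| < 2 * y := by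
  classical
  simp [kset, Finset.mem_filter, Finset.mem_Icc]

/-- A fraction in lowest terms. -/
lemma exists_reduced (γ : ℝ) {Q : ℕ} (hQ : 0 < Q) (P : ℤ) :
    ∃ (P' : ℤ) (Q' : ℕ), 0 < Q' ∧ IsCoprime P' (Q' : ℤ) ∧ Q' ≤ Q ∧
      |(Q' : ℝ) * γ - P'| ≤ |(Q : ℝ) * γ - P| ∧ (Q' : ℤ) * P = P' * Q := by
  have hg : 0 < Int.gcd P (Q : ℤ) := Int.gcd_pos_of_ne_zero_right P (by exact_mod_cast hQ.ne')
  obtain ⟨P', q, hco, hP, hq⟩ := Int.exists_gcd_one hg
  set g := Int.gcd P (Q : ℤ) with hgdef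
  have hg1 : (1 : ℤ) ≤ g := by exact_mod_cast hg
  have hq0 : 0 < q := by
    have : (0 : ℤ) < q * g := hq ▸ (by exact_mod_cast hQ)
    exact pos_of_mul_pos_left this (by omega)
  obtain ⟨Q', rfl⟩ := Int.eq_ofNat_of_zero_le hq0.le
  have hQR : (Q : ℝ) = (Q' : ℝ) * (g : ℝ) := by exact_mod_cast hq
  have hPR : (P : ℝ) = (P' : ℝ) * (g : ℝ) := by exact_mod_cast hP
  refine ⟨P', Q', by exact_mod_cast hq0, Int.isCoprime_iff_gcd_eq_one.mpr hco, ?_, ?_, ?_⟩
  · have : Q' ≤ Q' * g := Nat.le_mul_of_pos_right Q' hg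
    have e : Q = Q' * g := by exact_mod_cast hq
    omega
  · have e : (Q : ℝ) * γ - P = ((Q' : ℝ) * γ - P') * g := by rw [hQR, hPR]; ring
    rw [e, abs_mul, Nat.abs_cast]
    exact le_mul_of_one_le_right (abs_nonneg _) (by exact_mod_cast hg)
  · rw [hP, hq]; ring

/-- A short near resonance is killed by the trimming at radius `δ`. -/
lemma dead {γ δ y : ℝ} (hδ0 : 0 < δ) (hδ : δ < (1 / 2) ^ 50) (hy : (2 * y) ^ 2 ≤ δ) {k : ℕ}
    (hk : 0 < k) (hk' : (k : ℝ) ^ 50 * δ ^ 24 ≤ 1) {L : ℤ} (hL : |(L : ℝ) + γ * k| < 2 * y) :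
    ((approx γ δ).2 : ℤ) * L + (approx γ δ).1 * (k : ℤ) = 0 := by
  obtain ⟨P', Q', hQ', hco, hle, herr, he⟩ := exists_reduced γ hk (-L)
  have hnear : IsNear γ δ (P', Q') := by
    refine ⟨hQ', hco, le_trans ?_ hk', ?_⟩
    · exact mul_le_mul_of_nonneg_right
        (pow_le_pow_left₀ (Nat.cast_nonneg _) (by exact_mod_cast hle) 50) (pow_nonneg hδ0.le 24)
    · refine le_trans ?_ hy
      rw [← sq_abs]
      refine pow_le_pow_left₀ (abs_nonneg _) (herr.trans ?_) 2
      push_cast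
      rw [show (k : ℝ) * γ - -(L : ℝ) = (L : ℝ) + γ * k by ring]
      exact hL.le
  rw [approx_eq hδ0 hδ hnear]
  simp only
  linarith

/-- Few differences, unless all of them are killed. -/
lemma card_kset_le {γ δ y R η₀ : ℝ} {B : ℕ} (hy : 0 < y) (hδ0 : 0 < δ) (hδ : δ < (1 / 2) ^ 50)
    (hR : 1 ≤ R) (hRδ : R ^ 50 * δ ^ 24 ≤ 1) (hη0 : 0 < η₀) (hηδ : η₀ ^ 2 ≤ δ)
    (hsmall : 2 * y * R + B * η₀ < 1) {k₀ : ℕ} (hk₀ : k₀ ≤ B) {L₀ : ℤ}
    (hL₀ : |(L₀ : ℝ) + γ * k₀| < 2 * y)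
    (hlive : ((approx γ δ).2 : ℤ) * L₀ + (approx γ δ).1 * (k₀ : ℤ) ≠ 0) :
    ((kset γ y B).card : ℝ) ≤
      B / R + 1 + (2 * (2 * y * R + B * (4 * y)) + 1) * (4 * y / η₀ + 1) := by
  classical
  have hsecond : 0 ≤ (2 * (2 * y * R + B * (4 * y)) + 1) * (4 * y / η₀ + 1) := by positivity
  have hfirst : 0 ≤ (B : ℝ) / R + 1 := by positivity
  by_cases hres : ∀ Q : ℕ, 1 ≤ Q → (Q : ℝ) ≤ R → ∀ P : ℤ, 4 * y < |(Q : ℝ) * γ - P|
  · refine le_trans ?_ (le_add_of_nonneg_right hsecond)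
    have hsep : ∀ k ∈ kset γ y B, ∀ k' ∈ kset γ y B, k < k' → (k : ℝ) + R < k' := by
      intro k hk k' hk' hlt
      obtain ⟨-, L, hL⟩ := mem_kset.mp hk
      obtain ⟨-, L', hL'⟩ := mem_kset.mp hk'
      by_contra hcon
      rw [not_lt] at hcon
      have := hres (k' - k) (by omega) (by rw [Nat.cast_sub hlt.le]; linarith) (L - L')
      rw [Nat.cast_sub hlt.le] at this
      push_cast at this
      have e : ((k' : ℝ) - k) * γ - ((L : ℝ) - L') =
          ((L' : ℝ) + γ * k') - ((L : ℝ) + γ * k) := by ring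
      rw [e] at this
      linarith [abs_sub ((L' : ℝ) + γ * k') ((L : ℝ) + γ * k)]
    have hinj : Set.InjOn (fun k : ℕ => ⌊(k : ℝ) / R⌋₊) (kset γ y B) := by
      intro k hk k' hk' he
      simp only at he
      have hR0 : 0 < R := by linarith
      have a1 := Nat.floor_le (a := (k : ℝ) / R) (by positivity)
      have a2 := Nat.lt_floor_add_one ((k : ℝ) / R)
      have b1 := Nat.floor_le (a := (k' : ℝ) / R) (by positivity)
      have b2 := Nat.lt_floor_add_one ((k' : ℝ) / R)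
      rw [he] at a1 a2
      rcases lt_trichotomy k k' with h | h | h
      · have h2 := hsep k hk k' hk' h
        have : (k : ℝ) / R + 1 < (k' : ℝ) / R := by
          rw [div_add_one hR0.ne']
          exact (div_lt_div_iff_of_pos_right hR0).mpr h2
        linarith
      · exact h
      · have h2 := hsep k' hk' k hk h
        have : (k' : ℝ) / R + 1 < (k : ℝ) / R := by
          rw [div_add_one hR0.ne']
          exact (div_lt_div_iff_of_pos_right hR0).mpr h2
        linarith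
    have hmaps : ∀ k ∈ kset γ y B, ⌊(k : ℝ) / R⌋₊ ∈ Finset.range (⌊(B : ℝ) / R⌋₊ + 1) := by
      intro k hk
      refine Finset.mem_range.mpr (Nat.lt_succ_of_le (Nat.floor_le_floor ?_))
      exact div_le_div_of_nonneg_right (by exact_mod_cast (mem_kset.mp hk).1.2) (by linarith)
    have hc := Finset.card_le_card_of_injOn _ hmaps hinj
    rw [Finset.card_range] at hc
    have h1 : ((kset γ y B).card : ℝ) ≤ ((⌊(B : ℝ) / R⌋₊ + 1 : ℕ) : ℝ) := by exact_mod_cast hc
    push_cast at h1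
    linarith [Nat.floor_le (a := (B : ℝ) / R) (by positivity)]
  · push Not at hres
    obtain ⟨Q1, hQ1, hQ1R, P1, hP1⟩ := hres
    obtain ⟨P, Q, hQ, hco, hle, herr, -⟩ := exists_reduced γ (Nat.lt_of_lt_of_le Nat.one_pos hQ1) P1
    set η' : ℝ := (Q : ℝ) * γ - P with hη'
    set η : ℝ := |η'| with hη
    have hQR : (Q : ℝ) ≤ R := le_trans (by exact_mod_cast hle) hQ1R
    have hQ0 : (0 : ℝ) < Q := by exact_mod_cast hQ
    have hη4 : η ≤ 4 * y := herr.trans hP1
    have hkey : ∀ (k : ℕ) (L : ℤ), |(L : ℝ) + γ * k| < 2 * y → k ≤ B →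
        |((((Q : ℤ) * L + P * (k : ℤ)) : ℤ) : ℝ) + (k : ℝ) * η'| < 2 * y * Q ∧
        |((((Q : ℤ) * L + P * (k : ℤ)) : ℤ) : ℝ)| < 2 * y * R + B * η := by
      intro k L hL hk
      have h1 : |((((Q : ℤ) * L + P * (k : ℤ)) : ℤ) : ℝ) + (k : ℝ) * η'| < 2 * y * Q := by
        have e : ((((Q : ℤ) * L + P * (k : ℤ)) : ℤ) : ℝ) + (k : ℝ) * η' =
            ((L : ℝ) + γ * k) * Q := by rw [hη']; push_cast; ring
        rw [e, abs_mul, Nat.abs_cast]
        exact mul_lt_mul_of_pos_right hL hQ0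
      refine ⟨h1, ?_⟩
      have h2 : |(k : ℝ) * η'| ≤ B * η := by
        rw [abs_mul, Nat.abs_cast, ← hη]
        exact mul_le_mul_of_nonneg_right (by exact_mod_cast hk) (abs_nonneg _)
      have h3 := abs_le.mp h2
      have h4 := abs_lt.mp h1
      have h5 : 2 * y * (Q : ℝ) ≤ 2 * y * R := mul_le_mul_of_nonneg_left hQR (by linarith)
      rw [abs_lt]
      constructor <;> linarith
    have hη0' : η₀ < η := by
      by_contra hcon
      rw [not_lt] at hcon
      have hnear : IsNear γ δ (P, Q) := by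
        refine ⟨hQ, hco, le_trans ?_ hRδ, le_trans ?_ hηδ⟩
        · exact mul_le_mul_of_nonneg_right (pow_le_pow_left₀ hQ0.le hQR 50) (pow_nonneg hδ0.le 24)
        · rw [← sq_abs]
          exact pow_le_pow_left₀ (abs_nonneg _) hcon 2
      apply hlive
      rw [approx_eq hδ0 hδ hnear]
      simp only
      have h2 := (hkey k₀ L₀ hL₀ hk₀).2
      have h3 : (B : ℝ) * η ≤ B * η₀ := mul_le_mul_of_nonneg_left hcon (Nat.cast_nonneg _)
      have h4 : |((((Q : ℤ) * L₀ + P * (k₀ : ℤ)) : ℤ) : ℝ)| < 1 := by linarith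
      have h5 : |(Q : ℤ) * L₀ + P * (k₀ : ℤ)| < 1 := by exact_mod_cast h4
      exact Int.abs_lt_one_iff.mp h5
    refine le_trans ?_ (le_add_of_nonneg_left hfirst)
    have hη0'' : 0 < η := hη0.trans hη0'
    choose! L hL using fun k hk => (mem_kset (γ := γ) (y := y) (B := B) (k := k)).mp hk |>.2
    set J : ℕ → ℤ := fun k => (Q : ℤ) * L k + P * (k : ℤ) with hJ
    refine card_le_image_mul _ J (by positivity) ?_ ?_
    · refine card_le_of_span _ id Function.injective_id.injOn (by positivity) ?_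
      simp only [Finset.mem_image, id]
      rintro _ ⟨k, hk, rfl⟩ _ ⟨k', hk', rfl⟩
      have h1 := abs_lt.mp (hkey k (L k) (hL k hk) (mem_kset.mp hk).1.2).2
      have h2 := abs_lt.mp (hkey k' (L k') (hL k' hk') (mem_kset.mp hk').1.2).2
      have h3 : (B : ℝ) * η ≤ B * (4 * y) := mul_le_mul_of_nonneg_left hη4 (Nat.cast_nonneg _)
      simp only [hJ]
      linarith
    · intro j _
      have hmod : ∀ k ∈ (kset γ y B).filter (fun k => J k = j),
          ∀ k' ∈ (kset γ y B).filter (fun k => J k = j), (Q : ℤ) ∣ (k : ℤ) - k' := by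
        intro k hk k' hk'
        have e1 := (Finset.mem_filter.mp hk).2
        have e2 := (Finset.mem_filter.mp hk').2
        simp only [hJ] at e1 e2
        exact hco.symm.dvd_of_dvd_mul_left ⟨L k' - L k, by linarith⟩
      refine card_le_of_span _ (fun k : ℕ => (k : ℤ) / Q) ?_ (L := 4 * y / η₀) (by positivity) ?_
      · intro k hk k' hk' he
        have hd := hmod k hk k' hk'
        simp only at he
        have h1 : (k : ℤ) % Q = (k' : ℤ) % Q := Int.emod_eq_emod_iff_emod_sub_eq_zero.mpr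
          (Int.emod_eq_zero_of_dvd hd)
        have h2 := Int.emod_add_ediv_mul (k : ℤ) Q
        have h3 := Int.emod_add_ediv_mul (k' : ℤ) Q
        rw [he, h1] at h2
        have : (k : ℤ) = k' := by omega
        exact_mod_cast this
      · intro k hk k' hk'
        have hd := hmod k hk k' hk'
        have hk1 := (Finset.mem_filter.mp hk)
        have hk2 := (Finset.mem_filter.mp hk')
        have hj1 := hk1.2
        have hj2 := hk2.2
        simp only [hJ] at hj1 hj2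
        have h1 := (hkey k (L k) (hL k hk1.1) (mem_kset.mp hk1.1).1.2).1
        have h2 := (hkey k' (L k') (hL k' hk2.1) (mem_kset.mp hk2.1).1.2).1
        rw [hj1] at h1
        rw [hj2] at h2
        have h3 : |((k : ℝ) - k') * η'| ≤ 4 * y * Q := by
          have := abs_lt.mp h1
          have := abs_lt.mp h2
          rw [abs_le]; constructor <;> linarith
        rw [abs_mul, ← hη] at h3
        obtain ⟨s, hs⟩ := hd
        have hsR : (k : ℝ) - k' = (Q : ℝ) * s := by exact_mod_cast hs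
        rw [hsR, abs_mul, Nat.abs_cast] at h3
        have hdiv : (k : ℤ) / Q - (k' : ℤ) / Q = s := by
          have : (k : ℤ) = k' + (Q : ℤ) * s := by linarith
          rw [this, Int.add_mul_ediv_left _ _ (by exact_mod_cast hQ.ne')]
          ring
        have h6 : |(s : ℝ)| * η ≤ 4 * y := by
          refine le_of_mul_le_mul_left ?_ hQ0
          linarith
        have h7 : |(s : ℝ)| ≤ 4 * y / η₀ := by
          rw [le_div_iff₀ hη0]
          exact le_trans (mul_le_mul_of_nonneg_left hη0'.le (abs_nonneg _)) h6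
        have e : (((k : ℤ) / Q : ℤ) : ℝ) - (((k' : ℤ) / Q : ℤ) : ℝ) = (s : ℝ) := by
          rw [← Int.cast_sub, hdiv]
        exact e ▸ (le_abs_self _).trans h7

end Vale.Agent.P028.DS.SmallBox
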