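import Vale.Agent.P028.DS.SmallBox.Box

/-!
P028, milestone A, small boxes: a box with both cofactors large, through the projection.
-/

namespace Vale.Agent.P028.DS.SmallBox

open Finset Real

lemma divSum_le_of_dvd {c n : ℕ} (hn : n ≠ 0) (h : c ∣ n) : divSum c ≤ divSum n :=
  Finset.sum_le_sum_of_subset_of_nonneg (Nat.divisors_subset_of_dvd hn h) fun _ _ _ => by positivity

/-- Projected cofactors are cofactors of projections. -/
lemma cof_gp (G : Finset ℕ) {v w : ℕ} (hv : 0 < v) (hw : 0 < w) :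
    cof (gp G v) (gp G w) = gp G (cof v w) ∧ cof (gp G w) (gp G v) = gp G (cof w v) := by
  obtain ⟨h1, h2, ha, hb, hco⟩ := cof_spec hv hw
  have hg : 0 < Nat.gcd v w := Nat.gcd_pos_of_pos_left _ hv
  have e1 : gp G v = gp G (Nat.gcd v w) * gp G (cof v w) := by
    conv_lhs => rw [h1]
    exact gp_mul G hg.ne' ha.ne'
  have e2 : gp G w = gp G (Nat.gcd v w) * gp G (cof w v) := by
    conv_lhs => rw [h2]
    exact gp_mul G hg.ne' hb.ne'
  have hcop := gp_coprime G ha.ne' hb.ne' hco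
  have eg : Nat.gcd (gp G v) (gp G w) = gp G (Nat.gcd v w) := by
    rw [e1, e2, Nat.gcd_mul_left, hcop.gcd_eq_one, mul_one]
  constructor
  · conv_lhs => rw [cof, eg, e1, Nat.mul_div_cancel_left _ (gp_pos G hg.ne')]
  · conv_lhs => rw [cof, Nat.gcd_comm, eg, e2, Nat.mul_div_cancel_left _ (gp_pos G hg.ne')]

/-- The sum of the four terms of a fibre. -/
lemma fibre_product {P A B T : ℝ} (hP : 0 < P) (h1 : A * B / P ≤ T) (h2 : A ≤ T) (h3 : B ≤ T)
    (h4 : P ≤ T) : P * ((A / P + 1) * (B / P + 1)) ≤ 4 * T := by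
  have e : P * ((A / P + 1) * (B / P + 1)) = A * B / P + A + B + P := by field_simp; ring
  rw [e]; linarith

/-- The number of projected pairs in one rectangle. -/
lemma rect_card {C₀ ρ ε : ℝ} (hC₀ : 0 ≤ C₀) (hε : 0 < ε) {l m : ℕ}
    {S T : Finset ℕ} {N : ℝ} (h : N * (((1 : ℝ) / 2 ^ (m + 1)) * (1 / 2 ^ (l + 1))) ≤
      C₀ * (ρ ^ 2) ^ (1 / 2 - ε) *
        (((S.card : ℝ) * (1 / 2 ^ (m + 1))) * ((T.card : ℝ) * (1 / 2 ^ (l + 1)))) ^ (1 / 2 + ε)) :
    N ≤ C₀ * (ρ ^ 2) ^ (1 / 2 - ε) * (2 * Real.sqrt (p2 ((l + m : ℕ) : ℤ))) *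
        ((S.card : ℝ) * T.card) ^ (1 / 2 + ε) := by
  set w : ℝ := ((1 : ℝ) / 2 ^ (m + 1)) * (1 / 2 ^ (l + 1)) with hw
  have hw0 : 0 < w := by rw [hw]; positivity
  have e1 : ((S.card : ℝ) * (1 / 2 ^ (m + 1))) * ((T.card : ℝ) * (1 / 2 ^ (l + 1))) =
      ((S.card : ℝ) * T.card) * w := by rw [hw]; ring
  rw [e1, Real.mul_rpow (by positivity) hw0.le] at h
  have hr : w ^ (1 / 2 + ε) ≤ w * (2 * Real.sqrt (p2 ((l + m : ℕ) : ℤ))) := by
    have e2 : w = p2 (-(((l + m : ℕ) : ℤ) + 2)) := by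
      rw [hw, ← p2_inv, p2_add, p2_nat, show p2 2 = 4 by rw [p2]; norm_num, pow_succ, pow_succ,
        pow_add]
      field_simp
      ring
    have hw1 : w ≤ 1 := by rw [e2, ← p2_zero]; exact p2_le (by omega)
    have h2 : w ^ (1 / 2 + ε) ≤ w ^ ((1 : ℝ) / 2) :=
      Real.rpow_le_rpow_of_exponent_ge hw0 hw1 (by linarith)
    refine h2.trans (le_of_eq ?_)
    rw [← Real.sqrt_eq_rpow]
    have e3 : 2 * Real.sqrt (p2 ((l + m : ℕ) : ℤ)) = Real.sqrt (w⁻¹) := by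
      have h4 : Real.sqrt 4 = 2 := by
        rw [show (4 : ℝ) = 2 ^ 2 by norm_num, Real.sqrt_sq two_pos.le]
      rw [e2, p2_inv, neg_neg, p2_add, show p2 2 = 4 by rw [p2]; norm_num,
        Real.sqrt_mul (p2_nonneg _), h4]
      ring
    rw [e3]
    calc Real.sqrt w = Real.sqrt (w ^ 2 * w⁻¹) := by congr 1; field_simp
      _ = _ := by rw [Real.sqrt_mul (sq_nonneg w), Real.sqrt_sq hw0.le]
  refine le_of_mul_le_mul_right ?_ hw0
  refine h.trans ?_
  have hc : 0 ≤ C₀ * (ρ ^ 2) ^ (1 / 2 - ε) * ((S.card : ℝ) * T.card) ^ (1 / 2 + ε) := by positivity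
  calc _ = C₀ * (ρ ^ 2) ^ (1 / 2 - ε) * ((S.card : ℝ) * T.card) ^ (1 / 2 + ε) *
        w ^ (1 / 2 + ε) := by ring
    _ ≤ C₀ * (ρ ^ 2) ^ (1 / 2 - ε) * ((S.card : ℝ) * T.card) ^ (1 / 2 + ε) *
        (w * (2 * Real.sqrt (p2 ((l + m : ℕ) : ℤ)))) := mul_le_mul_of_nonneg_left hr hc
    _ = _ := by ring

open Classical in
/-- One set of primes balances a fixed proportion of the edges of a box. -/
lemma box_choice {γ : ℝ} {ψ : ℕ → ℝ} {F : Finset ℕ} {i α β : ℕ} (h0 : 0 ∉ F) (hψ : ∀ q, 0 ≤ ψ q)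
    (hi : 1 ≤ i) (hαlarge : (β : ℤ) - 730 * i < α) (hβlarge : 9200 * (i : ℤ) ≤ β) :
    ∃ G : Finset ℕ, ((edges (InBox γ ψ i α β) F F).card : ℝ) ≤ 20 *
      (((edges (InBox γ ψ i α β) F F).filter fun e =>
        Real.log ((cof e.1 e.2 * cof e.2 e.1 : ℕ) : ℝ) / 8 ≤
            Real.log (gp G (cof e.1 e.2 * cof e.2 e.1)) ∧
          Real.log (gp G (cof e.1 e.2 * cof e.2 e.1)) ≤
            7 * Real.log ((cof e.1 e.2 * cof e.2 e.1 : ℕ) : ℝ) / 8).card : ℝ) := by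
  set E := edges (InBox γ ψ i α β) F F with hE
  have facts := fun e (he : e ∈ E) => edge_facts h0 hψ he
  set num : ℕ × ℕ → ℕ := fun e => cof e.1 e.2 * cof e.2 e.1 with hnum
  have hcofpos : ∀ e ∈ E, 0 < cof e.1 e.2 ∧ 0 < cof e.2 e.1 ∧
      Nat.Coprime (cof e.1 e.2) (cof e.2 e.1) := fun e he => by
    obtain ⟨-, -, ha, hb, hco⟩ := cof_spec (facts e he).1.1 (facts e he).1.2
    exact ⟨ha, hb, hco⟩
  have hlognum : ∀ e ∈ E, ((α : ℝ) + β) * Real.log 2 ≤ Real.log (num e) := by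
    intro e he
    have h := mul_le_mul (facts e he).2.1.1 (facts e he).2.2.1.1 (p2_nonneg _) (Nat.cast_nonneg _)
    rw [← p2_add] at h
    have h' := Real.log_le_log (p2_pos _) h
    rw [log_p2] at h'
    simp only [hnum]
    push_cast at h' ⊢
    exact h'
  have hlog2 : 0 < Real.log 2 := Real.log_pos one_lt_two
  have hab : (0 : ℝ) < (α : ℝ) + β := by
    have : (0 : ℤ) < (α : ℤ) + β := by omega
    exact_mod_cast this
  have hnum1 : ∀ e ∈ E, 1 < num e := by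
    intro e he
    by_contra hcon
    have h := hlognum e he
    have : num e = 0 ∨ num e = 1 := by omega
    rcases this with h' | h' <;> rw [h'] at h <;>
      simp only [Nat.cast_zero, Nat.cast_one, Real.log_zero, Real.log_one] at h <;> nlinarith
  have hmax : ∀ e ∈ E, ∀ p, wgt (num e) p ≤ 53 / 100 * Real.log (num e) := by
    intro e he p
    obtain ⟨ha, hb, hco⟩ := hcofpos e he
    have hpow : p ^ (num e).factorization p ≤ cof e.2 e.1 ∨ (num e).factorization p = 0 := by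
      rw [hnum]
      simp only
      rw [Nat.factorization_mul ha.ne' hb.ne', Finsupp.add_apply]
      by_cases h1 : (cof e.1 e.2).factorization p = 0
      · rw [h1, zero_add]; exact Or.inl (Nat.ordProj_le p hb.ne')
      · have h2 : (cof e.2 e.1).factorization p = 0 := by
          by_contra h2
          have d1 : p ∣ cof e.1 e.2 := Nat.dvd_of_factorization_pos h1
          have d2 : p ∣ cof e.2 e.1 := Nat.dvd_of_factorization_pos h2
          have hp : p.Prime := Nat.prime_of_mem_primeFactors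
            (Nat.support_factorization _ ▸ Finsupp.mem_support_iff.mpr h1)
          exact hp.not_dvd_one ((Nat.eq_one_of_dvd_coprimes hco d1 d2) ▸ dvd_refl p)
        rw [h2, add_zero]
        exact Or.inl ((Nat.ordProj_le p ha.ne').trans (mem_edges.mp he).2.1.1.le)
    rcases hpow with hpow | hpow
    · have h1 : wgt (num e) p ≤ ((β : ℝ) + 1) * Real.log 2 := by
        rcases Nat.eq_zero_or_pos p with rfl | hp
        · simp only [wgt, Nat.cast_zero, Real.log_zero, mul_zero]; positivity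
        · have h2 : Real.log ((p ^ (num e).factorization p : ℕ) : ℝ) ≤ Real.log (p2 ((β : ℤ) + 1)) :=
            Real.log_le_log (by positivity)
              ((Nat.cast_le.mpr hpow).trans (facts e he).2.2.1.2.le)
          rw [log_p2, Nat.cast_pow, Real.log_pow] at h2
          push_cast at h2
          exact h2
      refine h1.trans (le_trans ?_ (mul_le_mul_of_nonneg_left (hlognum e he) (by norm_num)))
      rw [← mul_assoc]
      refine mul_le_mul_of_nonneg_right ?_ hlog2.le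
      have : 100 * ((β : ℤ) + 1) ≤ 53 * ((α : ℤ) + β) := by omega
      have h3 : 100 * ((β : ℝ) + 1) ≤ 53 * ((α : ℝ) + β) := by exact_mod_cast this
      linarith
    · rw [wgt, hpow]; simp only [Nat.cast_zero, zero_mul]
      exact mul_nonneg (by norm_num) (Real.log_natCast_nonneg _)
  exact exists_good E num hnum1 hmax

open Classical in
/-- The size of a projected product. -/
lemma proj_range {γ : ℝ} {ψ : ℕ → ℝ} {F : Finset ℕ} {i α β l m : ℕ} {G : Finset ℕ} (h0 : 0 ∉ F)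
    (hψ : ∀ q, 0 ≤ ψ q) (hαlarge : (β : ℤ) - 730 * i < α) (hβlarge : 9200 * (i : ℤ) ≤ β)
    (hi : 1 ≤ i) {e : ℕ × ℕ} (he : e ∈ edges (InBox γ ψ i α β) F F)
    (hgood : Real.log ((cof e.1 e.2 * cof e.2 e.1 : ℕ) : ℝ) / 8 ≤
        Real.log (gp G (cof e.1 e.2 * cof e.2 e.1)) ∧
      Real.log (gp G (cof e.1 e.2 * cof e.2 e.1)) ≤
        7 * Real.log ((cof e.1 e.2 * cof e.2 e.1 : ℕ) : ℝ) / 8)
    (hl : Nat.log 2 (cof (gp G e.1) (gp G e.2)) = l) (hm : Nat.log 2 (cof (gp G e.2) (gp G e.1)) = m)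
    (p1 : 0 < cof (gp G e.1) (gp G e.2)) (q1 : 0 < cof (gp G e.2) (gp G e.1))
    (hPlo : p2 ((l + m : ℕ) : ℤ) ≤
      ((cof (gp G e.1) (gp G e.2) * cof (gp G e.2) (gp G e.1) : ℕ) : ℝ)) :
    p2 (2200 * (i : ℤ) - 2) ≤ p2 ((l + m : ℕ) : ℤ) ∧
      p2 ((l + m : ℕ) : ℤ) ≤ p2 ((α : ℤ) + β + 2 - 2200 * i) := by
  have hiz : (1 : ℤ) ≤ i := by exact_mod_cast hi
  obtain ⟨⟨hv, hw⟩, hA, hB, -⟩ := edge_facts h0 hψ he
  obtain ⟨-, -, ha, hb, hco⟩ := cof_spec hv hw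
  obtain ⟨c1, c2⟩ := cof_gp G hv hw
  rw [gp_mul G ha.ne' hb.ne', ← c1, ← c2] at hgood
  set P : ℝ := ((cof (gp G e.1) (gp G e.2) * cof (gp G e.2) (gp G e.1) : ℕ) : ℝ) with hP
  have hPR : 0 < P := by rw [hP]; exact_mod_cast Nat.mul_pos p1 q1
  set L : ℝ := Real.log ((cof e.1 e.2 * cof e.2 e.1 : ℕ) : ℝ) with hLdef
  have hnum : ((α : ℝ) + β) * Real.log 2 ≤ L ∧ L ≤ ((α : ℝ) + β + 2) * Real.log 2 := by
    constructor
    · have h := mul_le_mul hA.1 hB.1 (p2_nonneg _) (Nat.cast_nonneg _)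
      rw [← p2_add] at h
      have h' := Real.log_le_log (p2_pos _) h
      rw [log_p2] at h'
      rw [hLdef]
      push_cast at h' ⊢
      exact h'
    · have h := mul_le_mul hA.2.le hB.2.le (Nat.cast_nonneg _) (p2_nonneg _)
      rw [← p2_add] at h
      have h' := Real.log_le_log (by positivity) h
      rw [log_p2] at h'
      rw [hLdef]
      push_cast at h' ⊢
      linarith
  have h8 : 8 * 2200 * (i : ℝ) ≤ (α : ℝ) + β := by
    have : 8 * 2200 * (i : ℤ) ≤ (α : ℤ) + β := by omega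
    exact_mod_cast this
  have h10 := mul_le_mul_of_nonneg_right h8 (Real.log_pos one_lt_two).le
  constructor
  · have h1 : p2 (2200 * (i : ℤ)) ≤ P := by
      refine (Real.log_le_log_iff (p2_pos _) hPR).mp ?_
      rw [log_p2]
      push_cast
      linarith [hgood.1, hnum.1]
    have h2 : P ≤ p2 (((l + m : ℕ) : ℤ) + 2) := by
      rw [hP, Nat.cast_mul, show ((l + m : ℕ) : ℤ) + 2 = ((l : ℤ) + 1) + ((m : ℤ) + 1) by
        push_cast; ring, p2_add]
      exact mul_le_mul (log_range p1 hl).2.le (log_range q1 hm).2.le (Nat.cast_nonneg _)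
        (p2_nonneg _)
    have h3 : 2200 * (i : ℤ) ≤ ((l + m : ℕ) : ℤ) + 2 := by
      by_contra hcon
      exact absurd (h1.trans h2) (not_le.mpr (p2_lt (not_le.mp hcon)))
    exact p2_le (by omega)
  · refine hPlo.trans ?_
    refine (Real.log_le_log_iff hPR (p2_pos _)).mp ?_
    rw [log_p2]
    push_cast
    linarith [hgood.2, hnum.2]

open Classical in
/-- The layered sum over the pairs of classes of one key. -/
lemma layered_sum {ρ C₀ ε : ℝ} (hρ : 1 ≤ ρ) (hC₀ : 0 ≤ C₀) (hε0 : 0 < ε)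
    (hH : ∀ (E : ℕ → ℕ → Prop) (f g : ℕ → ℝ) (V W : Finset ℕ) (r : ℝ), 1 ≤ r → Admissible E f g →
      (∀ v ∈ V, divSum v ≤ r) → (∀ w ∈ W, divSum w ≤ r) →
      edgeSum E f g V W ≤ C₀ * (r ^ 2) ^ (1 / 2 - ε) *
        ((∑ v ∈ V, f v) * ∑ w ∈ W, g w) ^ (1 / 2 + ε))
    (I : Finset (ℕ × ℕ)) (l m : ℕ) (G V W : Finset ℕ) (hV0 : 0 ∉ V) (hW0 : 0 ∉ W)
    (hdV : ∀ v ∈ V, divSum v ≤ ρ) (hdW : ∀ v ∈ W, divSum v ≤ ρ)
    (hI : ∀ x ∈ I, x.1 ∈ V.image (gp G) ∧ x.2 ∈ W.image (gp G) ∧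
      Nat.log 2 (cof x.1 x.2) = l ∧ Nat.log 2 (cof x.2 x.1) = m ∧
      0 < cof x.1 x.2 ∧ 0 < cof x.2 x.1) :
    ∑ x ∈ I, Real.sqrt (((V.filter fun v => gp G v = x.1).card : ℝ) *
        (W.filter fun w => gp G w = x.2).card) ≤
      2 * (C₀ * (ρ ^ 2) ^ (1 / 2 - ε) * (2 * Real.sqrt (p2 ((l + m : ℕ) : ℤ)))) * layerC ε ^ 2 *
        ((V.card : ℝ) * W.card) ^ (1 / 2 + ε) := by
  have hsub : I ⊆ V.image (gp G) ×ˢ W.image (gp G) := fun x hx =>
    Finset.mem_product.mpr ⟨(hI x hx).1, (hI x hx).2.1⟩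
  have hnz : ∀ (U : Finset ℕ), ∀ c ∈ U.image (gp G), (U.filter fun v => gp G v = c).card ≠ 0 := by
    intro U c hc
    obtain ⟨v, hv, hvc⟩ := Finset.mem_image.mp hc
    exact Finset.card_ne_zero.mpr ⟨v, Finset.mem_filter.mpr ⟨hv, hvc⟩⟩
  have hdd : ∀ (U : Finset ℕ), 0 ∉ U → (∀ v ∈ U, divSum v ≤ ρ) →
      ∀ c ∈ U.image (gp G), 0 < c ∧ divSum c ≤ ρ := by
    intro U h0 hd c hc
    obtain ⟨v, hv, rfl⟩ := Finset.mem_image.mp hc
    have hv0 : v ≠ 0 := fun h => h0 (h ▸ hv)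
    exact ⟨gp_pos G hv0, (divSum_le_of_dvd hv0 (gp_dvd G hv0)).trans (hd v hv)⟩
  have hrect : ∀ S T : Finset ℕ, S ⊆ V.image (gp G) → T ⊆ W.image (gp G) →
      ((I.filter fun x => x.1 ∈ S ∧ x.2 ∈ T).card : ℝ) ≤
        C₀ * (ρ ^ 2) ^ (1 / 2 - ε) * (2 * Real.sqrt (p2 ((l + m : ℕ) : ℤ))) *
          ((S.card : ℝ) * T.card) ^ (1 / 2 + ε) := by
    intro S T hS hT
    refine rect_card hC₀ hε0 ?_
    have hadm : Admissible (fun c c' => (c, c') ∈ I) (fun _ => (1 : ℝ) / 2 ^ (m + 1))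
        (fun _ => (1 : ℝ) / 2 ^ (l + 1)) := by
      refine ⟨fun _ => by positivity, fun _ => by positivity, ?_, ?_, ?_, ?_⟩
      · exact fun c c' h => (hdd V hV0 hdV c (hI _ h).1).1
      · exact fun c c' h => (hdd W hW0 hdW c' (hI _ h).2.1).1
      · intro c c' h
        obtain ⟨-, -, -, hm', -, hq⟩ := hI _ h
        rw [mul_one_div, div_le_one (by positivity)]
        have := (log_range hq hm').2.le
        rwa [show (m : ℤ) + 1 = ((m + 1 : ℕ) : ℤ) by push_cast; ring, p2_nat] at this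
      · intro c c' h
        obtain ⟨-, -, hl', -, hp, -⟩ := hI _ h
        rw [mul_one_div, div_le_one (by positivity)]
        have := (log_range hp hl').2.le
        rwa [show (l : ℤ) + 1 = ((l + 1 : ℕ) : ℤ) by push_cast; ring, p2_nat] at this
    have h := hH _ _ _ S T ρ hρ hadm (fun c hc => (hdd V hV0 hdV c (hS hc)).2)
      (fun c hc => (hdd W hW0 hdW c (hT hc)).2)
    rw [Finset.sum_const, Finset.sum_const, nsmul_eq_mul, nsmul_eq_mul, edgeSum_eq,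
      Finset.sum_const, nsmul_eq_mul] at h
    refine le_trans (le_of_eq ?_) h
    have e : edges (fun c c' => (c, c') ∈ I) S T = I.filter fun x => x.1 ∈ S ∧ x.2 ∈ T := by
      ext x
      simp only [edges, Finset.mem_filter, Finset.mem_product, Prod.mk.eta]
      tauto
    rw [e]
  refine (sum_layers hsub (n := fun c => (V.filter fun v => gp G v = c).card)
    (m := fun c => (W.filter fun w => gp G w = c).card) (hnz V) (hnz W) (by positivity) hε0
    hrect).trans (le_of_eq ?_)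
  rw [← Finset.card_eq_sum_card_image (gp G) V, ← Finset.card_eq_sum_card_image (gp G) W]

open Classical in
/-- The edges over one pair of classes in a box. -/
lemma fibre_card {γ : ℝ} {ψ : ℕ → ℝ} {F : Finset ℕ} {i α β : ℕ} (h0 : 0 ∉ F) (hψ : ∀ q, 0 ≤ ψ q)
    (G : Finset ℕ) (Ex : Finset (ℕ × ℕ)) {x : ℕ × ℕ}
    (hE : ∀ e ∈ Ex, e ∈ edges (InBox γ ψ i α β) F F)
    (hx : ∀ e ∈ Ex, (gp G e.1, gp G e.2) = x) (p1 : 0 < cof x.1 x.2) (q1 : 0 < cof x.2 x.1)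
    (hco : Nat.Coprime (cof x.1 x.2) (cof x.2 x.1)) {P₀ : ℝ} (hP₀0 : 0 < P₀)
    (hPlo : P₀ ≤ ((cof x.1 x.2 * cof x.2 x.1 : ℕ) : ℝ)) :
    (Ex.card : ℝ) ≤ ((boxK γ i β).card : ℝ) *
      (Real.sqrt ((p2 α / P₀ + 1) * (p2 β / P₀ + 1)) * Real.sqrt
        ((((F.filter fun v => ∃ e ∈ edges (InBox γ ψ i α β) F F, e.1 = v).filter
            fun v => gp G v = x.1).card : ℝ) *
          ((F.filter fun w => ∃ e ∈ edges (InBox γ ψ i α β) F F, e.2 = w).filter
            fun w => gp G w = x.2).card)) := by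
  have facts := fun e (he : e ∈ Ex) => edge_facts h0 hψ (hE e he)
  refine (card_fibre_le (E := Ex)
    (Vc := (F.filter fun v => ∃ e ∈ edges (InBox γ ψ i α β) F F, e.1 = v).filter
      fun v => gp G v = x.1)
    (Wc := (F.filter fun w => ∃ e ∈ edges (InBox γ ψ i α β) F F, e.2 = w).filter
      fun w => gp G w = x.2)
    (K := boxK γ i β) (p2_nonneg α) (p2_nonneg β) p1 q1 hco ?_ ?_ ?_ ?_ ?_ ?_ ?_).trans ?_
  · intro e he
    refine Finset.mem_filter.mpr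
      ⟨Finset.mem_filter.mpr ⟨(mem_edges.mp (hE e he)).1.1, e, hE e he, rfl⟩, ?_⟩
    rw [← hx e he]
  · intro e he
    refine Finset.mem_filter.mpr
      ⟨Finset.mem_filter.mpr ⟨(mem_edges.mp (hE e he)).1.2, e, hE e he, rfl⟩, ?_⟩
    rw [← hx e he]
  · exact fun e he => (facts e he).1
  · intro e he
    obtain ⟨-, -, -, -, -, ⟨k, L, hk, hk1, hk2, hL, -⟩, -⟩ := facts e he
    exact ⟨k, mem_kset.mpr ⟨⟨hk1, hk2⟩, L, hL⟩, hk⟩
  · intro e he
    obtain ⟨-, -, ha, hb, -⟩ := cof_spec (facts e he).1.1 (facts e he).1.2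
    obtain ⟨c1, c2⟩ := cof_gp G (facts e he).1.1 (facts e he).1.2
    have hh := hx e he
    rw [← hh]
    simp only
    rw [c1, c2]
    exact ⟨gp_dvd G ha.ne', gp_dvd G hb.ne'⟩
  · intro e he
    obtain ⟨h1, h2⟩ := (facts e he).2.1
    exact ⟨h1, h2.le.trans_eq (by rw [p2_add, p2_one]; ring)⟩
  · intro e he
    obtain ⟨h1, h2⟩ := (facts e he).2.2.1
    exact ⟨h1, h2.le.trans_eq (by rw [p2_add, p2_one]; ring)⟩
  · refine mul_le_mul_of_nonneg_left ?_ (Nat.cast_nonneg _)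
    rw [mul_comm]
    refine mul_le_mul_of_nonneg_right (Real.sqrt_le_sqrt ?_) (Real.sqrt_nonneg _)
    refine mul_le_mul ?_ ?_ (add_nonneg (div_nonneg (p2_nonneg _) (Nat.cast_nonneg _)) zero_le_one)
      (add_nonneg (div_nonneg (p2_nonneg _) hP₀0.le) zero_le_one)
    · exact add_le_add (div_le_div_of_nonneg_left (p2_nonneg _) hP₀0 hPlo) le_rfl
    · exact add_le_add (div_le_div_of_nonneg_left (p2_nonneg _) hP₀0 hPlo) le_rfl

/-- The vertex counts raised to the exponent of the bilinear bound. -/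
lemma count_pow {NV NW : ℕ} {x : ℝ} {i α β : ℕ} (hx0 : 0 ≤ x)
    (hV : (NV : ℝ) ≤ x * p2 (10002 * (i : ℤ) + β + 1))
    (hW : (NW : ℝ) ≤ x * p2 (10002 * (i : ℤ) + α + 1))
    (hαβ : α ≤ β) (hβ : β ≤ 10300 * i) (hi : 1 ≤ i) :
    ((NV : ℝ) * NW) ^ (1 / 2 + (1 : ℝ) / 100000) ≤
      (x + x ^ 2) * (Real.sqrt (p2 (20004 * (i : ℤ) + α + β + 2)) * p2 i) := by
  set Z : ℤ := 20004 * (i : ℤ) + α + β + 2 with hZ
  have h1 : (NV : ℝ) * NW ≤ x ^ 2 * p2 Z := by
    refine (mul_le_mul hV hW (Nat.cast_nonneg _) (mul_nonneg hx0 (p2_nonneg _))).trans (le_of_eq ?_)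
    rw [show ∀ u u' : ℝ, x * u * (x * u') = x ^ 2 * (u * u') from fun u u' => by ring, ← p2_add, hZ]
    congr 2
    ring
  refine (Real.rpow_le_rpow (by positivity) h1 (by positivity)).trans ?_
  rw [Real.mul_rpow (sq_nonneg x) (p2_nonneg _)]
  refine mul_le_mul ?_ ?_ (Real.rpow_nonneg (p2_nonneg _) _) (by positivity)
  · rw [← Real.rpow_natCast x 2, ← Real.rpow_mul hx0]
    rcases le_total x 1 with hx | hx
    · refine le_trans ?_ (le_add_of_nonneg_right (by positivity))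
      rcases hx0.eq_or_lt with h | h
      · rw [← h, Real.zero_rpow (by norm_num)]
      · calc x ^ (((2 : ℕ) : ℝ) * (1 / 2 + 1 / 100000)) ≤ x ^ (1 : ℝ) :=
              Real.rpow_le_rpow_of_exponent_ge h hx (by norm_num)
          _ = x := Real.rpow_one x
    · refine le_trans ?_ (le_add_of_nonneg_left hx0)
      exact Real.rpow_le_rpow_of_exponent_le hx (by norm_num)
  · rw [Real.rpow_add (p2_pos _), ← Real.sqrt_eq_rpow]
    refine mul_le_mul_of_nonneg_left ?_ (Real.sqrt_nonneg _)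
    rw [p2, p2, ← Real.rpow_intCast, ← Real.rpow_intCast, ← Real.rpow_mul two_pos.le]
    refine Real.rpow_le_rpow_of_exponent_le one_le_two ?_
    have : Z ≤ 100000 * (i : ℤ) := by rw [hZ]; omega
    have : (Z : ℝ) ≤ 100000 * (i : ℝ) := by exact_mod_cast this
    push_cast
    linarith

/-- The final arithmetic of a box. -/
lemma assemble (i α β : ℕ) (hi : 1 ≤ i) {M XX C₀ ρ : ℝ} (hM : 0 ≤ M) (hX : 0 ≤ XX) (hC₀ : 0 ≤ C₀) :
    20 * ((((α : ℝ) + 1) * ((β : ℝ) + 1)) * (M * (4 * (C₀ * (ρ ^ 2) ^ (1 / 2 - (1 : ℝ) / 100000)) *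
        layerC (1 / 100000) ^ 2 * Real.sqrt (4 * p2 ((α : ℤ) + β + 2 - 2200 * i)) *
        (XX * (Real.sqrt (p2 (20004 * (i : ℤ) + α + β + 2)) * p2 i))))) *
      p2 (-(20000 * (i : ℤ)) - α - β) ≤
      projC C₀ ρ * (((α : ℝ) + 1) * ((β : ℝ) + 1)) * M * p2 (-(11090 * (i : ℤ))) * XX := by
  have hsq : Real.sqrt (4 * p2 ((α : ℤ) + β + 2 - 2200 * i)) *
      Real.sqrt (p2 (20004 * (i : ℤ) + α + β + 2)) = p2 ((α : ℤ) + β + 3 + 8902 * i) := by
    rw [show (4 : ℝ) = p2 2 by rw [p2]; norm_num, ← p2_add, ← Real.sqrt_mul (p2_nonneg _), ← p2_add]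
    have e : 2 + ((α : ℤ) + β + 2 - 2200 * i) + (20004 * (i : ℤ) + α + β + 2) =
        ((α : ℤ) + β + 3 + 8902 * i) + ((α : ℤ) + β + 3 + 8902 * i) := by ring
    rw [e, p2_add, Real.sqrt_mul_self (p2_nonneg _)]
  have hfin : p2 ((α : ℤ) + β + 3 + 8902 * i) * p2 i * p2 (-(20000 * (i : ℤ)) - α - β) ≤
      p2 (-(11090 * (i : ℤ))) := by
    rw [← p2_add, ← p2_add]; exact p2_le (by omega)
  rw [projC]
  have hR : 0 ≤ (ρ ^ 2) ^ ((1 : ℝ) / 2 - 1 / 100000) := Real.rpow_nonneg (sq_nonneg ρ) _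
  generalize (ρ ^ 2) ^ ((1 : ℝ) / 2 - 1 / 100000) = R at hR ⊢
  generalize hL : layerC (1 / 100000) ^ 2 = L
  have hL0 : 0 ≤ L := hL ▸ sq_nonneg _
  have hnn : 0 ≤ 20 * (((α : ℝ) + 1) * ((β : ℝ) + 1)) * M * (4 * (C₀ * R) * L) * XX := by positivity
  calc _ = 20 * (((α : ℝ) + 1) * ((β : ℝ) + 1)) * M * (4 * (C₀ * R) * L) * XX *
        ((Real.sqrt (4 * p2 ((α : ℤ) + β + 2 - 2200 * i)) *
          Real.sqrt (p2 (20004 * (i : ℤ) + α + β + 2))) * p2 i *
            p2 (-(20000 * (i : ℤ)) - α - β)) := by ring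
    _ ≤ 20 * (((α : ℝ) + 1) * ((β : ℝ) + 1)) * M * (4 * (C₀ * R) * L) * XX *
        p2 (-(11090 * (i : ℤ))) := by
        rw [hsq]; exact mul_le_mul_of_nonneg_left hfin hnn
    _ = _ := by ring

open Classical in
theorem box_proj {γ : ℝ} {ψ : ℕ → ℝ} {F : Finset ℕ} {i α β : ℕ} {ρ C₀ : ℝ}
    (h0 : 0 ∉ F) (hψ : ∀ q, 0 ≤ ψ q) (hρ : 1 ≤ ρ) (hdiv : ∀ q ∈ F, divSum q ≤ ρ) (hC₀ : 0 ≤ C₀)
    (hH : ∀ (E : ℕ → ℕ → Prop) (f g : ℕ → ℝ) (V W : Finset ℕ) (r : ℝ), 1 ≤ r → Admissible E f g →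
      (∀ v ∈ V, divSum v ≤ r) → (∀ w ∈ W, divSum w ≤ r) →
      edgeSum E f g V W ≤ C₀ * (r ^ 2) ^ (1 / 2 - (1 : ℝ) / 100000) *
        ((∑ v ∈ V, f v) * ∑ w ∈ W, g w) ^ (1 / 2 + (1 : ℝ) / 100000))
    (hi : 1 ≤ i) (hαlarge : (β : ℤ) - 730 * i < α) (hβlarge : 9200 * (i : ℤ) ≤ β)
    (hβ : β ≤ 10300 * i) (hαβ : α ≤ β) :
    edgeSum (InBox γ ψ i α β) ψ ψ F F ≤
      projC C₀ ρ * (((α : ℝ) + 1) * ((β : ℝ) + 1)) * ((boxK γ i β).card : ℝ) *
        p2 (-(11090 * (i : ℤ))) * ((∑ q ∈ F, ψ q) + (∑ q ∈ F, ψ q) ^ 2) := by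
  have hiz : (1 : ℤ) ≤ i := by exact_mod_cast hi
  set ε : ℝ := (1 : ℝ) / 100000 with hε
  have hε0 : 0 < ε := by rw [hε]; norm_num
  set E := edges (InBox γ ψ i α β) F F with hE
  set X : ℝ := ∑ q ∈ F, ψ q with hX
  have hX0 : 0 ≤ X := Finset.sum_nonneg fun q _ => hψ q
  set D : ℝ := C₀ * (ρ ^ 2) ^ (1 / 2 - ε) with hD
  have hD0 : 0 ≤ D := by rw [hD]; positivity
  have facts := fun e (he : e ∈ E) => edge_facts h0 hψ he
  -- the choice of the primes
  set num : ℕ × ℕ → ℕ := fun e => cof e.1 e.2 * cof e.2 e.1 with hnum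
  obtain ⟨G, hG⟩ := box_choice (γ := γ) h0 hψ hi hαlarge hβlarge
  set Eg := E.filter fun e => Real.log (num e) / 8 ≤ Real.log (gp G (num e)) ∧
    Real.log (gp G (num e)) ≤ 7 * Real.log (num e) / 8 with hEg
  have hcofpos : ∀ e ∈ E, 0 < cof e.1 e.2 ∧ 0 < cof e.2 e.1 ∧
      Nat.Coprime (cof e.1 e.2) (cof e.2 e.1) := fun e he => by
    obtain ⟨-, -, ha, hb, hco⟩ := cof_spec (facts e he).1.1 (facts e he).1.2
    exact ⟨ha, hb, hco⟩
  -- vertices
  set V := F.filter fun v => ∃ e ∈ E, e.1 = v with hV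
  set W := F.filter fun w => ∃ e ∈ E, e.2 = w with hW
  have hVc : (V.card : ℝ) ≤ X * p2 (10002 * (i : ℤ) + β + 1) := by
    have h1 : (V.card : ℝ) * p2 (-(10002 * (i : ℤ)) - β - 1) ≤ X := by
      calc _ = ∑ _v ∈ V, p2 (-(10002 * (i : ℤ)) - β - 1) := by
            rw [Finset.sum_const, nsmul_eq_mul]
        _ ≤ ∑ v ∈ V, ψ v := Finset.sum_le_sum fun v hv => by
            obtain ⟨-, e, he, rfl⟩ := Finset.mem_filter.mp hv
            exact (facts e he).2.2.2.1.1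
        _ ≤ X := Finset.sum_le_sum_of_subset_of_nonneg (Finset.filter_subset _ _) fun q _ _ => hψ q
    have h2 := mul_le_mul_of_nonneg_right h1 (p2_nonneg (10002 * (i : ℤ) + β + 1))
    rwa [mul_assoc, ← p2_add, show -(10002 * (i : ℤ)) - β - 1 + (10002 * (i : ℤ) + β + 1) = 0 by ring,
      p2_zero, mul_one] at h2
  have hWc : (W.card : ℝ) ≤ X * p2 (10002 * (i : ℤ) + α + 1) := by
    have h1 : (W.card : ℝ) * p2 (-(10002 * (i : ℤ)) - α - 1) ≤ X := by
      calc _ = ∑ _v ∈ W, p2 (-(10002 * (i : ℤ)) - α - 1) := by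
            rw [Finset.sum_const, nsmul_eq_mul]
        _ ≤ ∑ v ∈ W, ψ v := Finset.sum_le_sum fun v hv => by
            obtain ⟨-, e, he, rfl⟩ := Finset.mem_filter.mp hv
            exact (facts e he).2.2.2.2.1.1
        _ ≤ X := Finset.sum_le_sum_of_subset_of_nonneg (Finset.filter_subset _ _) fun q _ _ => hψ q
    have h2 := mul_le_mul_of_nonneg_right h1 (p2_nonneg (10002 * (i : ℤ) + α + 1))
    rwa [mul_assoc, ← p2_add, show -(10002 * (i : ℤ)) - α - 1 + (10002 * (i : ℤ) + α + 1) = 0 by ring,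
      p2_zero, mul_one] at h2
  -- projected classes
  set pj : ℕ × ℕ → ℕ × ℕ := fun e => (gp G e.1, gp G e.2) with hpj
  set lm : ℕ × ℕ → ℕ × ℕ := fun x => (Nat.log 2 (cof x.1 x.2), Nat.log 2 (cof x.2 x.1)) with hlm
  set I := Eg.image pj with hI
  set KS := Finset.range (α + 1) ×ˢ Finset.range (β + 1) with hKS
  have hEgE : ∀ e ∈ Eg, e ∈ E := fun e he => (Finset.mem_filter.mp he).1
  have hpjcof : ∀ e ∈ Eg, cof (pj e).1 (pj e).2 = gp G (cof e.1 e.2) ∧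
      cof (pj e).2 (pj e).1 = gp G (cof e.2 e.1) := fun e he =>
    cof_gp G (facts e (hEgE e he)).1.1 (facts e (hEgE e he)).1.2
  have hkeys : ∀ x ∈ I, lm x ∈ KS := by
    intro x hx
    obtain ⟨e, he, rfl⟩ := Finset.mem_image.mp hx
    obtain ⟨ha, hb, -⟩ := hcofpos e (hEgE e he)
    obtain ⟨-, -, hα', hβ'⟩ := And.intro (facts e (hEgE e he)).1 (mem_edges.mp (hEgE e he)).2
    simp only [hlm, hKS, (hpjcof e he).1, (hpjcof e he).2, Finset.mem_product, Finset.mem_range]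
    exact ⟨Nat.lt_succ_of_le (hα' ▸ Nat.log_mono_right (gp_le G ha.ne')),
      Nat.lt_succ_of_le (hβ' ▸ Nat.log_mono_right (gp_le G hb.ne'))⟩
  set nV : ℕ → ℕ := fun c => (V.filter fun v => gp G v = c).card with hnV
  set nW : ℕ → ℕ := fun c => (W.filter fun w => gp G w = c).card with hnW
  set Z : ℤ := 20004 * (i : ℤ) + α + β + 2 with hZ
  set M : ℝ := (((boxK γ i β).card : ℕ) : ℝ) with hM
  have hM0 : 0 ≤ M := Nat.cast_nonneg _
  set T : ℝ := 4 * p2 ((α : ℤ) + β + 2 - 2200 * i) with hT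
  have hVW : ((V.card : ℝ) * W.card) ^ (1 / 2 + ε) ≤
      (X + X ^ 2) * (Real.sqrt (p2 Z) * p2 i) :=
    count_pow hX0 hVc hWc hαβ hβ hi
  have hclass : ∀ k ∈ KS, ∑ x ∈ I.filter (fun x => lm x = k),
      ((Eg.filter fun e => pj e = x).card : ℝ) ≤
        M * (4 * D * layerC ε ^ 2 * Real.sqrt T * ((X + X ^ 2) * (Real.sqrt (p2 Z) * p2 i))) := by
    rintro ⟨l, m⟩ -
    set Ilm := I.filter fun x => lm x = (l, m) with hIlm
    rcases Ilm.eq_empty_or_nonempty with hempty | hne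
    · rw [hempty, Finset.sum_empty]
      have : (0 : ℝ) ≤ layerC ε ^ 2 := sq_nonneg _
      have := p2_nonneg (i : ℤ)
      positivity
    set P₀ : ℝ := p2 ((l + m : ℕ) : ℤ) with hP₀
    have hP₀0 : 0 < P₀ := p2_pos _
    set A : ℝ := p2 α with hA
    set B : ℝ := p2 β with hB
    have hA0 : 0 ≤ A := p2_nonneg _
    have hB0 : 0 ≤ B := p2_nonneg _
    have hmem : ∀ x ∈ Ilm, ∃ e ∈ Eg, pj e = x ∧ Nat.log 2 (cof x.1 x.2) = l ∧
        Nat.log 2 (cof x.2 x.1) = m ∧ 0 < cof x.1 x.2 ∧ 0 < cof x.2 x.1 ∧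
        Nat.Coprime (cof x.1 x.2) (cof x.2 x.1) ∧
        P₀ ≤ (cof x.1 x.2 * cof x.2 x.1 : ℕ) := by
      intro x hx
      obtain ⟨hxI, hxk⟩ := Finset.mem_filter.mp hx
      obtain ⟨e, he, rfl⟩ := Finset.mem_image.mp hxI
      simp only [hlm, Prod.mk.injEq] at hxk
      obtain ⟨ha, hb, hco⟩ := hcofpos e (hEgE e he)
      have p1 : 0 < cof (pj e).1 (pj e).2 := by rw [(hpjcof e he).1]; exact gp_pos G ha.ne'
      have p2' : 0 < cof (pj e).2 (pj e).1 := by rw [(hpjcof e he).2]; exact gp_pos G hb.ne'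
      refine ⟨e, he, rfl, hxk.1, hxk.2, p1, p2', ?_, ?_⟩
      · rw [(hpjcof e he).1, (hpjcof e he).2]; exact gp_coprime G ha.ne' hb.ne' hco
      · rw [hP₀, Nat.cast_add, p2_add, Nat.cast_mul]
        exact mul_le_mul (log_range p1 hxk.1).1 (log_range p2' hxk.2).1 (p2_nonneg _)
          (Nat.cast_nonneg _)
    -- the size of the projected product
    obtain ⟨x, hx⟩ := hne
    obtain ⟨e, he, hex, hl, hm, p1, q1, -, hPlo⟩ := hmem x hx
    obtain ⟨hPlo', hPhi⟩ : p2 (2200 * (i : ℤ) - 2) ≤ P₀ ∧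
        P₀ ≤ p2 ((α : ℤ) + β + 2 - 2200 * i) := by
      rw [← hex] at hl hm hPlo p1 q1
      exact proj_range (G := G) h0 hψ hαlarge hβlarge hi (hEgE e he) (Finset.mem_filter.mp he).2
        hl hm p1 q1 hPlo
    have hprod : P₀ * ((A / P₀ + 1) * (B / P₀ + 1)) ≤ T := by
      refine fibre_product hP₀0 ?_ ?_ ?_ hPhi
      · rw [div_le_iff₀ hP₀0, hA, hB, ← p2_add]
        refine le_trans ?_ (mul_le_mul_of_nonneg_left hPlo' (p2_nonneg _))
        rw [← p2_add]; exact p2_le (by omega)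
      · exact p2_le (by omega)
      · exact p2_le (by omega)
    -- the fibres
    have hfib : ∀ x ∈ Ilm, ((Eg.filter fun e => pj e = x).card : ℝ) ≤
        M * (Real.sqrt ((A / P₀ + 1) * (B / P₀ + 1)) * Real.sqrt ((nV x.1 : ℝ) * nW x.2)) := by
      intro x hx
      obtain ⟨-, -, -, -, -, p1, q1, hcox, hPlo⟩ := hmem x hx
      exact fibre_card h0 hψ G (Eg.filter fun e => pj e = x)
        (fun e he => hEgE e (Finset.mem_filter.mp he).1)
        (fun e he => (Finset.mem_filter.mp he).2) p1 q1 hcox hP₀0 hPlo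
    refine (Finset.sum_le_sum hfib).trans ?_
    rw [← Finset.mul_sum, ← Finset.mul_sum]
    refine mul_le_mul_of_nonneg_left ?_ hM0
    have hlay : ∑ x ∈ Ilm, Real.sqrt ((nV x.1 : ℝ) * nW x.2) ≤
        2 * (D * (2 * Real.sqrt P₀)) * layerC ε ^ 2 * ((V.card : ℝ) * W.card) ^ (1 / 2 + ε) :=
      layered_sum hρ hC₀ hε0 hH Ilm l m G V W
        (fun h => h0 (Finset.mem_filter.mp h).1) (fun h => h0 (Finset.mem_filter.mp h).1)
        (fun v hv => hdiv v (Finset.mem_filter.mp hv).1) (fun v hv => hdiv v (Finset.mem_filter.mp hv).1)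
        (fun x hx => by
          obtain ⟨e, he, hpje, hl', hm', hp, hq, -⟩ := hmem x hx
          subst hpje
          exact ⟨Finset.mem_image_of_mem _ (Finset.mem_filter.mpr
              ⟨(mem_edges.mp (hEgE e he)).1.1, e, hEgE e he, rfl⟩),
            Finset.mem_image_of_mem _ (Finset.mem_filter.mpr
              ⟨(mem_edges.mp (hEgE e he)).1.2, e, hEgE e he, rfl⟩), hl', hm', hp, hq⟩)
    have hsqrt : Real.sqrt ((A / P₀ + 1) * (B / P₀ + 1)) * Real.sqrt P₀ ≤ Real.sqrt T := by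
      rw [← Real.sqrt_mul (by positivity)]
      exact Real.sqrt_le_sqrt (by linarith)
    refine (mul_le_mul_of_nonneg_left hlay (Real.sqrt_nonneg _)).trans ?_
    have hLC : 0 ≤ layerC ε ^ 2 := sq_nonneg _
    calc _ = 4 * D * layerC ε ^ 2 *
          ((Real.sqrt ((A / P₀ + 1) * (B / P₀ + 1)) * Real.sqrt P₀) *
            ((V.card : ℝ) * W.card) ^ (1 / 2 + ε)) := by ring
      _ ≤ 4 * D * layerC ε ^ 2 * (Real.sqrt T * ((X + X ^ 2) * (Real.sqrt (p2 Z) * p2 i))) :=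
          mul_le_mul_of_nonneg_left (mul_le_mul hsqrt hVW (by positivity)
            (Real.sqrt_nonneg _)) (by positivity)
      _ = _ := by ring
  -- assembly
  have hcardEg : (Eg.card : ℝ) ≤ (((α : ℝ) + 1) * ((β : ℝ) + 1)) *
      (M * (4 * D * layerC ε ^ 2 * Real.sqrt T * ((X + X ^ 2) * (Real.sqrt (p2 Z) * p2 i)))) := by
    rw [Finset.card_eq_sum_card_image pj Eg, Nat.cast_sum, ← hI,
      ← Finset.sum_fiberwise_of_maps_to hkeys]
    refine (Finset.sum_le_card_nsmul _ _ _ hclass).trans (le_of_eq ?_)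
    rw [nsmul_eq_mul, hKS, Finset.card_product, Finset.card_range, Finset.card_range]
    push_cast
    rfl
  rw [edgeSum_eq]
  have hpt : ∀ e ∈ E, ψ e.1 * ψ e.2 ≤ p2 (-(20000 * (i : ℤ)) - α - β) := by
    intro e he
    refine (mul_le_mul (facts e he).2.2.2.1.2 (facts e he).2.2.2.2.1.2 (hψ _) (p2_nonneg _)).trans
      (le_of_eq ?_)
    rw [← p2_add]; congr 1; ring
  refine (Finset.sum_le_card_nsmul _ _ _ hpt).trans ?_
  rw [nsmul_eq_mul]
  refine (mul_le_mul_of_nonneg_right (hG.trans (mul_le_mul_of_nonneg_left hcardEg (by norm_num)))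
    (p2_nonneg _)).trans ?_
  exact assemble i α β hi hM0 (add_nonneg hX0 (sq_nonneg X)) hC₀

end Vale.Agent.P028.DS.SmallBox
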